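import Vale.Agent.P134I.OnU
import Vale.Agent.P134L.Defs

/-!
The pointwise calculus of a leaf; Bochner, Simons and the other identities for `Geo`.
-/

noncomputable section

namespace P134I

open Finset Filter Topology Set Vale.Agent.P134L
open scoped ContDiff

variable {m : ℕ} {M : Type} [MetricSpace M] [MeasurableSpace M] {G : Geo m M}

/-- the pointwise calculus given by the rules of first order -/
def pc (h1 : Core G) (h2 : Rule G) : PC M (Fin (m + 1)) where
  Sm := G.Sm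
  δ := G.δ
  N i q := G.N q i
  sm_ev := h2.ev
  sm_congr e h := h2.scg h e
  sm_const := h2.smc
  sm_add := h2.add
  sm_mul := h2.mul
  sm_δ i h := h2.smδ h i
  sm_N i x := h1.smN x i
  δ_congr i e := h1.cgr e i
  δ_const i a x := h2.δc a x i
  δ_add i hf hg := h2.δadd hf hg i
  δ_mul i hf hg := h2.δmul hf hg i
  nn x := by simpa only [sq] using h1.N1 x
  nd := h2.tan
  sym := h1.sy
  mini := h1.tr
  comm i j h := h2.comm h i j

variable (h1 : Core G) (h2 : Rule G)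

theorem pc_Sm : (pc h1 h2).Sm = G.Sm := rfl
theorem pc_δ : (pc h1 h2).δ = G.δ := rfl
theorem pc_N (i : Fin (m + 1)) (q : M) : (pc h1 h2).N i q = G.N q i := rfl
theorem pc_A (i j : Fin (m + 1)) : (pc h1 h2).A i j = G.A i j := rfl
theorem pc_lap (f : M → ℝ) : (pc h1 h2).lap f = G.Lap f := rfl
theorem pc_g2 (f : M → ℝ) : (pc h1 h2).g2 f = G.Gam f f := rfl

theorem pc_s : (pc h1 h2).s = G.A2 := by
  funext q
  simp only [PC.s, Geo.A2, sq, pc_A]

theorem sm_inv (h2 : Rule G) {f : M → ℝ} {x : M} (hf : G.Sm f x) (h0 : f x ≠ 0) :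
    G.Sm (fun y => (f y)⁻¹) x :=
  h2.comp (F := fun t => t⁻¹) ((eventually_ne_nhds h0).mono
    fun _ ht => contDiffAt_inv ℝ ht) hf

theorem pc_inv : ∀ {f x}, (pc h1 h2).Sm f x → f x ≠ 0 → (pc h1 h2).Sm (fun y => (f y)⁻¹) x :=
  fun hf h0 => sm_inv h2 hf h0

include h1 h2

/-- the Laplacian of the normal -/
theorem geo_lap_N (k : Fin (m + 1)) (p : M) :
    G.Lap (fun q => G.N q k) p = -(G.A2 p * G.N p k) := by
  rw [← pc_s h1 h2]
  exact (pc h1 h2).lap_N p k

/-- Bochner's formula with the full second derivatives -/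
theorem geo_bochner {f : M → ℝ} {p : M} (hf : G.Sm f p) :
    G.Lap (G.Gam f f) p = 2 * (∑ j, ∑ i, G.δ i (G.δ j f) p * G.δ i (G.δ j f) p
      + G.Gam f (G.Lap f) p - 2 * ∑ i, (∑ k, G.A i k p * G.δ k f p) ^ 2) := by
  have e1 := PC.bochner (c := pc h1 h2) hf
  have e2 := PC.dd_sq (c := pc h1 h2) hf
  simp only [PC.Ad, pc_A, pc_δ, pc_lap, pc_g2] at e1 e2
  rw [e1, e2]
  simp only [Geo.Gam, sq]
  ring

/-- the Bochner inequality -/
theorem geo_bochner_le {f : M → ℝ} {p : M} (hf : G.Sm f p) :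
    2 * G.Gam f (G.Lap f) p - 2 * (G.A2 p * G.Gam f f p) ≤ G.Lap (G.Gam f f) p := by
  have e1 := PC.bochner (c := pc h1 h2) hf
  simp only [PC.Ad, pc_A, pc_δ, pc_lap, pc_g2] at e1
  have a1 : 0 ≤ ∑ i, ∑ j, (pc h1 h2).H f i j p * (pc h1 h2).H f i j p :=
    sum_nonneg fun _ _ => sum_nonneg fun _ _ => mul_self_nonneg _
  have a2 : ∑ i, (∑ k, G.A i k p * G.δ k f p) * ∑ k, G.A i k p * G.δ k f p
      ≤ G.A2 p * G.Gam f f p := by
    unfold Geo.A2 Geo.Gam
    rw [sum_mul]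
    refine sum_le_sum fun i _ => ?_
    simpa only [sq] using sum_mul_sq_le_sq_mul_sq univ (fun k => G.A i k p) fun k => G.δ k f p
  rw [e1]
  unfold Geo.Gam at *
  linarith

end P134I
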