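import Vale.Agent.P134I.Link
import Vale.Agent.P134Q.Div
import Vale.Agent.P134Q.Bnd

/-!
The scalar certificates give the certificate of the analytic frame.
-/

namespace P134I

theorem cert6 (h : Vale.Agent.P134Q.CERT) : Vale.Agent.P134L.CERT 6 :=
  link Vale.Agent.P134Q.div Vale.Agent.P134Q.bd Vale.Agent.P134Q.err h

end P134I
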