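import Vale.Agent.P134Q.Spec

/-!
The bounds on the multipliers needed for the link with the analytic frame: statements.
-/

namespace P134I

open Finset Vale.Agent.P134Q

/-- **BD**: size of the weight, of its gradient and of the field -/
def BD : Prop := ∀ P : Par, 0 < P.c → ∃ C : ℝ, 0 ≤ C ∧ ∀ X : Ten (Fin 7), 0 < X.r + X.s →
  |X.rho P| ≤ C * (X.r + X.s) ∧
  ∑ i, X.drho P i ^ 2 ≤ C * (X.r + X.s) * (X.TT + X.EE + (X.r + X.s) ^ 2) ∧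
  ∑ i, X.fld P i ^ 2 ≤ C * (X.r + X.s) * (X.TT + X.EE + (X.r + X.s) ^ 2)

/-- **ERR**: size of the radial components -/
def ERR : Prop := ∀ P : Par, 0 < P.c → ∃ C : ℝ, 0 ≤ C ∧ ∀ X : Ten (Fin 7), 0 < X.r + X.s →
  |X.rho P - P.D1 * X.r| ≤ C * X.s ∧ ∀ gx gk : ℝ, 0 ≤ gx → 0 ≤ gk →
    ∑ i, X.Y i * X.Y i = X.s * gx → ∑ i, X.K i * X.K i = X.r * gk →
    (∑ i, X.z i * X.drho P i - 2 * X.rho P * X.r - 2 * ∑ i, X.z i * X.fld P i
      + (4 * P.D1 + 2 * P.l0) * X.r ^ 2) ^ 2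
      ≤ C * ((gx + gk + X.s * X.r) * (X.r ^ 2 + X.s * X.r))

end P134I
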