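import Vale.Agent.P134I.OnU

/-!
Orthonormal eigenbases of symmetric arrays; the refined Kato inequality in an eigenbasis.
-/

noncomputable section

namespace P134I

open Finset

variable {ι : Type*} [Fintype ι] [DecidableEq ι]

/-- the component of `p` along `e a` -/
def co (e : ι → ι → ℝ) (p : ι → ℝ) (a : ι) : ℝ := ∑ i, p i * e a i

/-- an orthonormal eigenbasis of `A` -/
structure EB (A e : ι → ι → ℝ) (lam : ι → ℝ) : Prop where
  on : ∀ a b, ∑ i, e a i * e b i = if a = b then 1 else 0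
  par : ∀ p q : ι → ℝ, ∑ i, p i * q i = ∑ a, co e p a * co e q a
  eig : ∀ a i, ∑ j, A i j * e a j = lam a * e a i

theorem exists_EB {A : ι → ι → ℝ} (hA : ∀ i j, A i j = A j i) : ∃ e lam, EB A e lam := by
  have hH : (Matrix.of A).IsHermitian := by
    ext i j
    simp [hA i j]
  have hin : ∀ p q : EuclideanSpace ℝ ι, inner ℝ p q = ∑ i, p i * q i := fun p q => by
    simp [PiLp.inner_apply, mul_comm]
  refine ⟨fun a i => hH.eigenvectorBasis a i, hH.eigenvalues, fun a b => ?_, fun p q => ?_,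
    fun a i => ?_⟩
  · rw [← hin]
    exact orthonormal_iff_ite.1 hH.eigenvectorBasis.orthonormal a b
  · have h := hH.eigenvectorBasis.sum_inner_mul_inner (WithLp.toLp 2 p) (WithLp.toLp 2 q)
    simp only [hin] at h
    rw [← h]
    unfold co
    simp only [mul_comm (q _)]
  · have h := congrFun (hH.mulVec_eigenvectorBasis a) i
    simpa [Matrix.mulVec, dotProduct] using h

namespace EB

variable {A e : ι → ι → ℝ} {lam : ι → ℝ} (h : EB A e lam)
include h

theorem co_mul (hA : ∀ i j, A i j = A j i) (p : ι → ℝ) (a : ι) :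
    co e (fun i => ∑ j, A i j * p j) a = lam a * co e p a := by
  unfold co
  simp only [sum_mul, mul_sum]
  rw [sum_comm]
  refine sum_congr rfl fun j _ => ?_
  have := h.eig a j
  calc ∑ i, A i j * p j * e a i = p j * ∑ i, A j i * e a i := by
        rw [mul_sum]; exact sum_congr rfl fun i _ => by rw [hA i j]; ring
    _ = _ := by rw [this]; ring

theorem co_comb (c : ι → ℝ) (a : ι) : co e (fun i => ∑ b, c b * e b i) a = c a := by
  unfold co
  simp only [sum_mul, mul_assoc]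
  rw [sum_comm]
  simp only [← mul_sum, h.on, mul_ite, mul_one, mul_zero, sum_ite_eq', mem_univ, if_true]

theorem unit (a : ι) : ∑ i, e a i * e a i = 1 := by rw [h.on, if_pos rfl]

/-- the bound for the eigenvalues in dimension six -/
theorem lam_le (hm : Fintype.card ι = 7) {N : ι → ℝ} (hN : ∑ i, N i * N i = 1)
    (hA : ∀ i j, A i j = A j i) (hAN : ∀ i, ∑ j, A i j * N j = 0) (htr : ∑ i, A i i = 0) (a : ι) :
    6 * lam a ^ 2 ≤ 5 * ∑ i, ∑ j, A i j * A i j := by
  have h1 := eig6 hm hN hA hAN htr (e a)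
  simp only [h.eig] at h1
  have h2 : ∑ i, lam a * e a i * (lam a * e a i) = lam a ^ 2 * ∑ i, e a i * e a i := by
    rw [mul_sum]; exact sum_congr rfl fun i _ => by ring
  rw [h2, h.unit] at h1
  linarith

/-- the refined Kato inequality in an eigenbasis, dual form -/
theorem kato_dual (hm : Fintype.card ι = 7) {N : ι → ℝ} (hN : ∑ i, N i * N i = 1)
    (hA : ∀ i j, A i j = A j i) (hAN : ∀ i, ∑ j, A i j * N j = 0)
    (htr : ∑ i, A i i = 0) {T : ι → ι → ι → ℝ} (h1 : ∀ k i j, T k i j = T k j i)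
    (h2 : ∀ k i j, T k i j = T i k j) (hTN : ∀ k i, ∑ j, T k i j * N j = 0)
    (htT : ∀ k, ∑ i, T k i i = 0) (c : ι → ℝ) :
    ∑ a, (2 * c a * co e (fun k => ∑ i, ∑ j, A i j * T k i j) a
      - ((∑ i, ∑ j, A i j * A i j) / 3 + lam a ^ 2 / 2) * c a ^ 2)
      ≤ ∑ k, ∑ i, ∑ j, T k i j * T k i j := by
  have h3 := kato6 hm hN hA hAN htr h1 h2 hTN htT fun i => ∑ b, c b * e b i
  rw [h.par (fun i => ∑ b, c b * e b i) fun k => ∑ i, ∑ j, A i j * T k i j,
    h.par (fun i => ∑ b, c b * e b i) fun i => ∑ b, c b * e b i,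
    h.par (fun i => ∑ j, A i j * ∑ b, c b * e b j) fun i => ∑ j, A i j * ∑ b, c b * e b j] at h3
  simp only [h.co_mul hA, h.co_comb] at h3
  refine le_trans (le_of_eq ?_) h3
  simp only [mul_sum (a := (2 : ℝ)), mul_sum (a := ∑ i, ∑ j, A i j * A i j), sum_div,
    ← sum_add_distrib, ← sum_sub_distrib]
  refine sum_congr rfl fun a _ => ?_
  simp only [← sum_div]
  ring

/-- the refined Kato inequality in an eigenbasis -/
theorem kato_eig (hm : Fintype.card ι = 7) {N : ι → ℝ} (hN : ∑ i, N i * N i = 1)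
    (hA : ∀ i j, A i j = A j i) (hAN : ∀ i, ∑ j, A i j * N j = 0)
    (htr : ∑ i, A i i = 0) {T : ι → ι → ι → ℝ} (h1 : ∀ k i j, T k i j = T k j i)
    (h2 : ∀ k i j, T k i j = T i k j) (hTN : ∀ k i, ∑ j, T k i j * N j = 0)
    (htT : ∀ k, ∑ i, T k i i = 0) (hs : 0 < ∑ i, ∑ j, A i j * A i j) :
    ∑ a, 6 * co e (fun k => ∑ i, ∑ j, A i j * T k i j) a ^ 2
        / (2 * (∑ i, ∑ j, A i j * A i j) + 3 * lam a ^ 2)
      ≤ ∑ k, ∑ i, ∑ j, T k i j * T k i j := by
  refine le_trans (le_of_eq (sum_congr rfl fun a _ => ?_)) (h.kato_dual hm hN hA hAN htr h1 h2 hTN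
    htT fun a => 6 * co e (fun k => ∑ i, ∑ j, A i j * T k i j) a
      / (2 * (∑ i, ∑ j, A i j * A i j) + 3 * lam a ^ 2))
  have : 0 < 2 * (∑ i, ∑ j, A i j * A i j) + 3 * lam a ^ 2 := by positivity
  field_simp
  ring

end EB

end P134I
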