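import Vale.Agent.P134I.Cert
import Vale.Agent.P134Q.Cert
import Vale.Agent.P134L.D0
import Vale.Agent.P134L.D1
import Vale.Agent.P134L.D2
import Vale.Agent.P134L.G1
import Vale.Agent.P134L.G2
import Vale.Agent.P134L.G3
import Vale.Agent.P134L.G4
import Vale.Agent.P134L.G5
import Vale.Agent.P134L.G6
import Vale.Agent.P134L.G7
import Vale.Agent.P134L.G8
import Vale.Agent.P134L.G9
import Vale.Agent.P134L.I1
import Vale.Agent.P134L.I2
import Vale.Agent.P134L.I3
import Vale.Agent.P134L.I4
import Vale.Agent.P134L.I5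
import Vale.Agent.P134L.K1
import Vale.Agent.P134L.K2
import Vale.Agent.P134L.K3
import Vale.Agent.P134L.K4
import Vale.Agent.P134L.K5
import Vale.Agent.P134L.L0
import Vale.Agent.P134L.L1
import Vale.Agent.P134L.L2
import Vale.Agent.P134L.X1

/-!
Complete stable minimal hypersurfaces of dimension six with bounded curvature are flat.
-/

namespace P134I

open Vale.Agent.P134L

theorem bern6 : BERN 6 :=
  bern_of k1 k2 k3 k4 k5 k6 l0 l1 l2 x1 g1 g2 g3 g4 g5 g6 g7 g8 g9 i1 i2 i3 i4 i5 d0 d1 d2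
    (by norm_num) (cert6 Vale.Agent.P134Q.cert)

end P134I
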