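import Mathlib

/-!
Linear algebra of tangential tensors in `ℝ^(m+1)` with a unit normal `N`: the refined Kato
inequality in dual form and the eigenvalue bound for trace-free symmetric tensors.
-/

namespace P134I

open Finset

variable {ι : Type*} [Fintype ι] [DecidableEq ι]

/-- the orthogonal projection onto the tangent space -/
def proj (N : ι → ℝ) (i j : ι) : ℝ := (if i = j then 1 else 0) - N i * N j

omit [Fintype ι] in
theorem proj_symm (N : ι → ℝ) (i j : ι) : proj N i j = proj N j i := by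
  unfold proj
  simp only [eq_comm (a := i), mul_comm]

theorem proj_mul (N w : ι → ℝ) (i : ι) :
    ∑ j, proj N i j * w j = w i - N i * ∑ j, N j * w j := by
  unfold proj
  simp only [sub_mul, sum_sub_distrib, ite_mul, one_mul, zero_mul, sum_ite_eq, mem_univ, if_true,
    mul_assoc, ← mul_sum]

theorem proj_N {N : ι → ℝ} (hN : ∑ i, N i * N i = 1) (j : ι) : ∑ i, N i * proj N i j = 0 := by
  simp only [proj_symm N _ j, mul_comm (N _) (proj N j _)]
  rw [proj_mul, hN]
  ring

theorem proj_tr {N : ι → ℝ} (hN : ∑ i, N i * N i = 1) {m : ℕ} (hm : Fintype.card ι = m + 1) :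
    ∑ i, proj N i i = m := by
  unfold proj
  simp only [if_true, sum_sub_distrib, hN, sum_const, card_univ, hm, nsmul_eq_mul]
  push_cast
  ring

/-- pairing the projection with a tangential tensor gives its trace -/
theorem proj_pair (N : ι → ℝ) (S : ι → ι → ℝ) (hS : ∀ j, ∑ k, N k * S j k = 0) :
    ∑ j, ∑ k, proj N j k * S j k = ∑ j, S j j := by
  refine sum_congr rfl fun j _ => ?_
  rw [proj_mul, hS]
  ring

theorem proj_sq {N : ι → ℝ} (hN : ∑ i, N i * N i = 1) {m : ℕ} (hm : Fintype.card ι = m + 1) :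
    ∑ j, ∑ k, proj N j k * proj N j k = m := by
  rw [proj_pair N (proj N) fun j => by simp only [proj_symm N j]; exact proj_N hN j,
    proj_tr hN hm]

omit [DecidableEq ι] in
theorem sum3_swap₁ (F : ι → ι → ι → ℝ) :
    ∑ i, ∑ j, ∑ k, F i j k = ∑ i, ∑ j, ∑ k, F j i k := sum_comm

omit [DecidableEq ι] in
theorem sum3_swap₂ (F : ι → ι → ι → ℝ) :
    ∑ i, ∑ j, ∑ k, F i j k = ∑ i, ∑ j, ∑ k, F i k j := sum_congr rfl fun _ _ => sum_comm

omit [DecidableEq ι] in
/-- testing a symmetric three-tensor against the symmetrisation of `U` -/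
theorem sym3 (T U : ι → ι → ι → ℝ) (h1 : ∀ i j k, T i j k = T j i k)
    (h2 : ∀ i j k, T i j k = T i k j) (hU : ∀ i j k, U i j k = U i k j) :
    2 * ∑ i, ∑ j, ∑ k, T i j k * U i j k
      - (∑ i, ∑ j, ∑ k, U i j k * U i j k + 2 * ∑ i, ∑ j, ∑ k, U i j k * U j i k) / 3
      ≤ ∑ i, ∑ j, ∑ k, T i j k * T i j k := by
  have h0 : 0 ≤ ∑ i, ∑ j, ∑ k, (T i j k - (U i j k + U j i k + U k i j) / 3) ^ 2 :=
    sum_nonneg fun _ _ => sum_nonneg fun _ _ => sum_nonneg fun _ _ => sq_nonneg _
  have e : ∀ i j k, (T i j k - (U i j k + U j i k + U k i j) / 3) ^ 2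
      = T i j k * T i j k - 2 / 3 * (T i j k * U i j k) - 2 / 3 * (T i j k * U j i k)
        - 2 / 3 * (T i j k * U k i j) + 1 / 9 * (U i j k * U i j k) + 1 / 9 * (U j i k * U j i k)
        + 1 / 9 * (U k i j * U k i j) + 2 / 9 * (U i j k * U j i k) + 2 / 9 * (U i j k * U k i j)
        + 2 / 9 * (U j i k * U k i j) := fun i j k => by ring
  simp only [e, sum_add_distrib, sum_sub_distrib, ← mul_sum] at h0
  have a1 : ∑ i, ∑ j, ∑ k, T i j k * U j i k = ∑ i, ∑ j, ∑ k, T i j k * U i j k := by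
    rw [sum3_swap₁]
    simp only [fun i j k => h1 j i k]
  have a2 : ∑ i, ∑ j, ∑ k, T i j k * U k i j = ∑ i, ∑ j, ∑ k, T i j k * U i j k := by
    rw [← a1, sum3_swap₂]
    simp only [fun i j k => h2 i k j]
  have a3 : ∑ i, ∑ j, ∑ k, U j i k * U j i k = ∑ i, ∑ j, ∑ k, U i j k * U i j k :=
    (sum3_swap₁ fun i j k => U i j k * U i j k).symm
  have a4 : ∑ i, ∑ j, ∑ k, U k i j * U k i j = ∑ i, ∑ j, ∑ k, U i j k * U i j k := by
    rw [← a3, sum3_swap₂]
  have a5 : ∑ i, ∑ j, ∑ k, U i j k * U k i j = ∑ i, ∑ j, ∑ k, U i j k * U j i k := by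
    rw [sum3_swap₂]
    simp only [fun i j k => hU i k j]
  have a6 : ∑ i, ∑ j, ∑ k, U j i k * U k i j = ∑ i, ∑ j, ∑ k, U i j k * U j i k := by
    rw [← a5, sum3_swap₁]
    exact sum_congr rfl fun i _ => sum_congr rfl fun j _ => sum_congr rfl fun k _ => by
      rw [hU k j i]
  rw [a1, a2, a3, a4, a5, a6] at h0
  linarith

/-- **Refined Kato inequality**, dual form: for every vector `v`,
`2 v·Y - (s |v|² / 3 + 2m / (3 (m + 2)) |A v|²) ≤ |T|²`, `Y i = ∑ A j k T i j k`. -/
theorem kato {m : ℕ} (hm : Fintype.card ι = m + 1) {N : ι → ℝ} (hN : ∑ i, N i * N i = 1)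
    {A : ι → ι → ℝ} (hA : ∀ i j, A i j = A j i) (hNA : ∀ k, ∑ j, N j * A j k = 0)
    (htr : ∑ i, A i i = 0) {T : ι → ι → ι → ℝ} (h1 : ∀ i j k, T i j k = T j i k)
    (h2 : ∀ i j k, T i j k = T i k j) (hNT : ∀ j k, ∑ i, N i * T i j k = 0)
    (htT : ∀ i, ∑ j, T i j j = 0) (v : ι → ℝ) :
    2 * ∑ i, v i * ∑ j, ∑ k, A j k * T i j k
      - ((∑ j, ∑ k, A j k * A j k) * (∑ i, v i * v i) / 3
        + 2 * m / (3 * (m + 2)) * ∑ i, (∑ j, A i j * v j) * ∑ j, A i j * v j)
      ≤ ∑ i, ∑ j, ∑ k, T i j k * T i j k := by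
  set w : ι → ℝ := fun i => ∑ j, A i j * v j with hw
  set μ : ℝ := 2 / (m + 2) with hμ
  have hAN : ∀ j, ∑ k, N k * A j k = 0 := fun j => by simp only [hA j]; exact hNA j
  have hNw : ∑ i, N i * w i = 0 := by
    simp only [hw, mul_sum]
    rw [sum_comm]
    refine sum_eq_zero fun j _ => ?_
    simp only [← mul_assoc]
    rw [← sum_mul, hNA, zero_mul]
  have hPw : ∀ i, ∑ j, proj N i j * w j = w i := fun i => by rw [proj_mul, hNw]; ring
  have key := sym3 T (fun i j k => v i * A j k - μ * (w i * proj N j k)) h1 h2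
    fun i j k => by rw [hA j k, proj_symm N j k]
  have b1 : ∑ i, ∑ j, ∑ k, T i j k * (v i * A j k - μ * (w i * proj N j k))
      = ∑ i, v i * ∑ j, ∑ k, A j k * T i j k := by
    refine sum_congr rfl fun i _ => ?_
    have e : ∀ j k, T i j k * (v i * A j k - μ * (w i * proj N j k))
        = v i * (A j k * T i j k) - μ * w i * (proj N j k * T i j k) := fun j k => by ring
    simp only [e, sum_sub_distrib, ← mul_sum]
    rw [proj_pair N (T i) fun j => by
      rw [← hNT i j]; exact sum_congr rfl fun k _ => by rw [h2 i j k, h1 i k j], htT]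
    ring
  have b2 : ∑ i, ∑ j, ∑ k, (v i * A j k - μ * (w i * proj N j k))
        * (v i * A j k - μ * (w i * proj N j k))
      = (∑ j, ∑ k, A j k * A j k) * (∑ i, v i * v i) + μ ^ 2 * m * ∑ i, w i * w i := by
    have e : ∀ i j k, (v i * A j k - μ * (w i * proj N j k))
        * (v i * A j k - μ * (w i * proj N j k))
        = v i * v i * (A j k * A j k) - 2 * μ * v i * w i * (proj N j k * A j k)
          + μ ^ 2 * (w i * w i) * (proj N j k * proj N j k) := fun i j k => by ring
    simp only [e, sum_sub_distrib, sum_add_distrib, ← mul_sum, proj_pair N A hAN, htr,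
      proj_sq hN hm, mul_zero, sum_const_zero, ← sum_mul]
    ring
  have b3 : ∑ i, ∑ j, ∑ k, (v i * A j k - μ * (w i * proj N j k))
        * (v j * A i k - μ * (w j * proj N i k)) = (1 - μ) ^ 2 * ∑ i, w i * w i := by
    have e : ∀ k, ∑ i, ∑ j, (v i * A j k - μ * (w i * proj N j k))
        * (v j * A i k - μ * (w j * proj N i k))
        = w k * w k - μ * ((∑ i, proj N k i * v i) * ∑ j, A k j * w j)
          - μ * ((∑ j, A k j * w j) * ∑ i, proj N k i * v i) + μ ^ 2 * (w k * w k) := by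
      intro k
      conv_rhs => rw [← hPw k]
      have c1 : (∑ j, proj N k j * w j) * (∑ j, proj N k j * w j) = w k * w k := by rw [hPw]
      have c2 : w k * w k = ∑ i, ∑ j, (A k i * v i) * (A k j * v j) := by
        simp only [hw]; rw [sum_mul_sum]
      nth_rewrite 1 [c1]
      rw [c2]
      simp only [sum_mul_sum]
      simp only [mul_sum, ← sum_sub_distrib, ← sum_add_distrib]
      refine sum_congr rfl fun i _ => sum_congr rfl fun j _ => ?_
      rw [hA j k, hA i k, proj_symm N j k, proj_symm N i k]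
      ring
    have c3 : ∑ k, (∑ i, proj N k i * v i) * ∑ j, A k j * w j = ∑ i, w i * w i := by
      have d1 : ∑ k, v k * ∑ j, A k j * w j = ∑ i, w i * w i := by
        simp only [mul_sum]
        rw [sum_comm]
        refine sum_congr rfl fun j _ => ?_
        conv_rhs => rw [show w j * w j = (∑ k, A j k * v k) * w j from rfl, sum_mul]
        exact sum_congr rfl fun k _ => by rw [hA k j]; ring
      have d2 : ∑ k, N k * ∑ j, A k j * w j = 0 := by
        simp only [mul_sum]
        rw [sum_comm]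
        refine sum_eq_zero fun j _ => ?_
        simp only [← mul_assoc]
        rw [← sum_mul, hNA, zero_mul]
      simp only [proj_mul, sub_mul, sum_sub_distrib, mul_right_comm (N _) (∑ j, N j * v j)]
      rw [← sum_mul, d1, d2]
      ring
    rw [sum3_swap₂, sum3_swap₁]
    simp only [e, sum_sub_distrib, sum_add_distrib, ← mul_sum,
      mul_comm (∑ j, A _ j * w j) (∑ i, proj N _ i * v i), c3]
    ring
  rw [b1, b2, b3] at key
  have hc : (μ ^ 2 * m + 2 * (1 - μ) ^ 2) / 3 = 2 * m / (3 * (m + 2)) := by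
    rw [hμ]
    have : (m : ℝ) + 2 ≠ 0 := by positivity
    field_simp
    ring
  rw [← hc]
  linarith

/-- **Eigenvalue bound**: `m |S v|² ≤ (m - 1) |S|² |v|²` for symmetric, trace-free, tangential `S`. -/
theorem eig_le {m : ℕ} (hm : Fintype.card ι = m + 1) (hm2 : 2 ≤ m) {N : ι → ℝ}
    (hN : ∑ i, N i * N i = 1) {S : ι → ι → ℝ} (hS : ∀ i j, S i j = S j i)
    (hNS : ∀ k, ∑ j, N j * S j k = 0) (htr : ∑ i, S i i = 0) (v : ι → ℝ) :
    m * ∑ i, (∑ j, S i j * v j) * ∑ j, S i j * v j
      ≤ (m - 1) * ((∑ i, ∑ j, S i j * S i j) * ∑ i, v i * v i) := by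
  set w : ι → ℝ := fun i => ∑ j, S i j * v j with hw
  have hm0 : (0 : ℝ) < m := by exact_mod_cast (by omega : 0 < m)
  have hm2' : (2 : ℝ) ≤ m := by exact_mod_cast hm2
  set p : ℝ := ∑ i, w i * v i with hp
  set U : ι → ι → ℝ := fun i j => (w i * v j + w j * v i) / 2 - p / m * proj N i j with hU
  have hSN : ∀ j, ∑ k, N k * S j k = 0 := fun j => by simp only [hS j]; exact hNS j
  have hNw : ∑ i, N i * w i = 0 := by
    simp only [hw, mul_sum]
    rw [sum_comm]
    refine sum_eq_zero fun j _ => ?_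
    simp only [← mul_assoc]
    rw [← sum_mul, hNS, zero_mul]
  have hPw : ∀ i, ∑ j, proj N i j * w j = w i := fun i => by rw [proj_mul, hNw]; ring
  have a0 : ∑ i, ∑ j, w i * (S i j * v j) = ∑ i, w i * w i := by
    simp only [← mul_sum]; rfl
  have a1 : ∑ i, ∑ j, S i j * U i j = ∑ i, w i * w i := by
    have e : ∀ i j, S i j * U i j = 1 / 2 * (w i * (S i j * v j)) + 1 / 2 * (w j * (S j i * v i))
        - p / m * (proj N i j * S i j) := fun i j => by rw [hS j i]; simp only [hU]; ring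
    simp only [e, sum_sub_distrib, sum_add_distrib]
    rw [sum_comm (f := fun i j => 1 / 2 * (w j * (S j i * v i)))]
    simp only [← mul_sum (a := (1 / 2 : ℝ)), ← mul_sum (a := p / m), a0, proj_pair N S hSN, htr]
    ring
  have a2 : ∑ i, ∑ j, U i j * U i j
      = ((∑ i, w i * w i) * (∑ i, v i * v i) + p ^ 2) / 2 - p ^ 2 / m := by
    have e : ∀ i j, U i j * U i j = 1 / 4 * ((w i * w i) * (v j * v j))
        + 1 / 4 * ((v i * v i) * (w j * w j)) + 1 / 2 * ((w i * v i) * (w j * v j))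
        - p / m * (v i * (proj N i j * w j)) - p / m * (v j * (proj N j i * w i))
        + (p / m) ^ 2 * (proj N i j * proj N i j) := fun i j => by
      rw [proj_symm N j i]; simp only [hU]; ring
    simp only [e, sum_sub_distrib, sum_add_distrib]
    rw [sum_comm (f := fun i j => p / m * (v j * (proj N j i * w i)))]
    simp only [← mul_sum, ← sum_mul, hPw, proj_sq hN hm, mul_comm (v _) (w _), ← hp]
    field_simp
    ring
  have cs1 : p ^ 2 ≤ (∑ i, w i * w i) * ∑ i, v i * v i := by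
    have := sum_mul_sq_le_sq_mul_sq univ w v
    simpa only [sq] using this
  have cs2 : (∑ i, w i * w i) ^ 2 ≤ (∑ i, ∑ j, S i j * S i j) * ∑ i, ∑ j, U i j * U i j := by
    rw [← a1]
    have := sum_mul_sq_le_sq_mul_sq univ (fun q : ι × ι => S q.1 q.2) fun q => U q.1 q.2
    simpa only [sq, Fintype.sum_prod_type] using this
  have hW : 0 ≤ ∑ i, w i * w i := sum_nonneg fun _ _ => mul_self_nonneg _
  have hV : 0 ≤ ∑ i, v i * v i := sum_nonneg fun _ _ => mul_self_nonneg _
  have hSS : 0 ≤ ∑ i, ∑ j, S i j * S i j :=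
    sum_nonneg fun _ _ => sum_nonneg fun _ _ => mul_self_nonneg _
  change m * ∑ i, w i * w i ≤ _
  generalize ∑ i, w i * w i = W at *
  generalize ∑ i, v i * v i = V at *
  generalize ∑ i, ∑ j, S i j * S i j = Q at *
  have a3 : m * ∑ i, ∑ j, U i j * U i j ≤ (m - 1) * (W * V) := by
    rw [a2]
    have : (m : ℝ) * ((W * V + p ^ 2) / 2 - p ^ 2 / m) = m * (W * V) / 2 + (m - 2) / 2 * p ^ 2 := by
      field_simp
      ring
    rw [this]
    nlinarith [mul_le_mul_of_nonneg_left cs1 (sub_nonneg.2 hm2')]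
  rcases hW.eq_or_lt with h | h
  · rw [← h, mul_zero]
    exact mul_nonneg (by linarith) (mul_nonneg hSS hV)
  · have a4 : W * (m * W) ≤ W * ((m - 1) * (Q * V)) := by
      nlinarith [mul_le_mul_of_nonneg_left cs2 hm0.le, mul_le_mul_of_nonneg_left a3 hSS]
    exact le_of_mul_le_mul_left a4 h

end P134I
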