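import Vale.Agent.P134I.Bd

/-!
From the scalar certificates to the certificate of the analytic frame.
-/

noncomputable section

namespace P134I

open Finset Set Filter Topology Vale.Agent.P134Q Vale.Agent.P134L
open scoped ContDiff

theorem quad {ι : Type} [Fintype ι] [Nonempty ι] (p z : ι → ℝ) (ρ t L Φ : ℝ)
    (h : ∀ v : ι → ℝ, Φ ≤ L + ∑ i, v i * (p i + 2 * t * ρ * z i) + ρ * ∑ i, v i * v i) :
    0 ≤ ρ ∧ ∃ θ, 0 ≤ θ ∧ ∑ i, p i * p i ≤ 4 * ρ * θ ∧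
      Φ ≤ L - θ - t * ∑ i, z i * p i - t ^ 2 * (ρ * ∑ i, z i * z i) := by
  have hρ : 0 ≤ ρ := by
    by_contra hc
    push Not at hc
    have hn : (0 : ℝ) < Fintype.card ι := by exact_mod_cast Fintype.card_pos
    obtain ⟨l, hl⟩ : ∃ l : ℝ, l * l = (|L - Φ| + 1) / (-ρ * Fintype.card ι) :=
      ⟨√_, Real.mul_self_sqrt (div_nonneg (by positivity) (mul_pos (neg_pos.2 hc) hn).le)⟩
    have h1 := h fun _ => l
    have h2 := h fun _ => -l
    simp only [neg_mul, sum_neg_distrib, sum_const, card_univ, nsmul_eq_mul, mul_neg,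
      neg_neg, hl] at h1 h2
    have h3 : ρ * (Fintype.card ι * ((|L - Φ| + 1) / -(ρ * Fintype.card ι))) = -(|L - Φ| + 1) := by
      have := hc.ne
      field_simp
    rw [h3] at h1 h2
    linarith [le_abs_self (L - Φ)]
  refine ⟨hρ, ?_⟩
  have hp : 0 ≤ ∑ i, p i * p i := sum_nonneg fun _ _ => mul_self_nonneg _
  rcases hρ.eq_or_lt with h0 | h0
  · subst h0
    have h1 : ∀ l : ℝ, 0 ≤ 0 * (l * l) + (∑ i, p i * p i) * l + (L - Φ) := fun l => by
      have := h fun i => l * p i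
      simp only [mul_zero, zero_mul, add_zero, mul_assoc, ← mul_sum] at this
      linarith
    have h2 := discrim_le_zero h1
    have h3 : ∑ i, p i * p i = 0 := by
      unfold discrim at h2
      nlinarith
    have h4 : ∀ i, p i = 0 := fun i => mul_self_eq_zero.1
      ((sum_eq_zero_iff_of_nonneg fun _ _ => mul_self_nonneg _).1 h3 i (mem_univ i))
    refine ⟨0, le_rfl, by rw [h3]; simp, ?_⟩
    have := h fun _ => 0
    simp only [h4, mul_zero, zero_mul, sum_const_zero, sub_zero, add_zero] at this ⊢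
    exact this
  · refine ⟨(∑ i, p i * p i) / (4 * ρ), by positivity, le_of_eq (by field_simp), ?_⟩
    refine (h fun i => -(p i + 2 * t * ρ * z i) / (2 * ρ)).trans (le_of_eq ?_)
    have e1 : ∀ i, -(p i + 2 * t * ρ * z i) / (2 * ρ) * (p i + 2 * t * ρ * z i)
        = -(1 / (2 * ρ)) * (p i * p i) - 2 * t * (z i * p i) - 2 * t ^ 2 * ρ * (z i * z i) :=
      fun i => by field_simp; ring
    have e2 : ∀ i, -(p i + 2 * t * ρ * z i) / (2 * ρ) * (-(p i + 2 * t * ρ * z i) / (2 * ρ))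
        = 1 / (4 * ρ ^ 2) * (p i * p i) + t / ρ * (z i * p i) + t ^ 2 * (z i * z i) :=
      fun i => by field_simp; ring
    simp only [e1, e2, sum_sub_distrib, sum_add_distrib, ← mul_sum]
    field_simp
    ring

/-- the numbers at a point -/
structure Num (ep D1 l0 C t r s α β γ : ℝ) : Prop where
  hr : 0 ≤ r
  hs : 0 ≤ s
  ex : ∃ g ρ, 0 ≤ g ∧ γ = ρ * r ∧ |ρ - D1 * r| ≤ C * s ∧
    (β + (4 * D1 + 2 * l0) * r ^ 2) ^ 2 ≤ C * ((g + s * r) * (r ^ 2 + s * r)) ∧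
    ep * (g + s * r - t * r ^ 2) ≤ α - t * β - t ^ 2 * γ

theorem pos_sc {ep D1 l0 C y : ℝ} (he : 0 < ep) (hC : 0 ≤ C) (y0 : 0 < y) (y1 : y ≤ 1) :
    ∃ c > (0 : ℝ), ∃ C' ≥ (0 : ℝ), ∀ r s α β γ, Num ep D1 l0 C (-y) r s α β γ → ∀ a b : ℝ,
      (c * a ^ 2 - C' * (b + y * a) ^ 2) * (r ^ 2 + s * r) ≤ a ^ 2 * α - a * b * β - b ^ 2 * γ := by
  obtain ⟨C1, hC1⟩ : ∃ C1, C1 = |D1| + C := ⟨_, rfl⟩
  obtain ⟨k, hk⟩ : ∃ k, k = |4 * D1 + 2 * l0| + 2 * C1 := ⟨_, rfl⟩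
  obtain ⟨C2, hC2⟩ : ∃ C2, C2 = 2 * C / ep + 2 * k ^ 2 / (ep * y) := ⟨_, rfl⟩
  have c1 : 0 ≤ C1 := by rw [hC1]; positivity
  have c2 : 0 ≤ C2 := by rw [hC2]; positivity
  refine ⟨ep * y / 2, by positivity, C2 / 2 + C1, by positivity, ?_⟩
  rintro r s α β γ ⟨hr, hs, g, ρ, hg, hγ, h1, h2, h3⟩ a b
  have hsr : 0 ≤ s * r := mul_nonneg hs hr
  obtain ⟨J, hJ⟩ : ∃ J, J = r ^ 2 + s * r := ⟨_, rfl⟩
  obtain ⟨Φ, hΦ⟩ : ∃ Φ, Φ = ep * (g + s * r - -y * r ^ 2) := ⟨_, rfl⟩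
  have j0 : 0 ≤ J := by rw [hJ]; positivity
  have j1 : r ^ 2 ≤ J := by rw [hJ]; linarith
  have f1 : ep * y * J ≤ Φ := by
    rw [hΦ, hJ, mul_assoc]
    exact mul_le_mul_of_nonneg_left (by nlinarith) he.le
  have f2 : ep * (g + s * r) ≤ Φ := by
    rw [hΦ]
    exact mul_le_mul_of_nonneg_left (by nlinarith [sq_nonneg r]) he.le
  have f0 : 0 ≤ Φ := le_trans (by positivity) f2
  have g1 : |γ| ≤ C1 * J := by
    have e : γ = (ρ - D1 * r) * r + D1 * r ^ 2 := by rw [hγ]; ring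
    rw [e, hC1, hJ]
    refine (abs_add_le _ _).trans ?_
    rw [abs_mul, abs_mul, abs_of_nonneg hr, abs_of_nonneg (sq_nonneg r)]
    nlinarith [mul_le_mul_of_nonneg_right h1 hr, abs_nonneg D1, sq_nonneg r]
  have g2 : |(4 * D1 + 2 * l0) * r ^ 2 + 2 * y * γ| ≤ k * J := by
    refine (abs_add_le _ _).trans ?_
    rw [abs_mul, abs_mul, abs_of_nonneg (sq_nonneg r), abs_of_nonneg (by positivity : 0 ≤ 2 * y),
      hk]
    nlinarith [mul_le_mul_of_nonneg_left j1 (abs_nonneg (4 * D1 + 2 * l0)), abs_nonneg γ]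
  have g3 : (β - 2 * y * γ) ^ 2 ≤ Φ * (C2 * J) := by
    have a1 : ((4 * D1 + 2 * l0) * r ^ 2 + 2 * y * γ) ^ 2 ≤ (k * J) ^ 2 :=
      sq_le_sq' (abs_le.1 g2).1 (abs_le.1 g2).2
    have a2 : C * ((g + s * r) * J) ≤ Φ * (C / ep * J) := by
      have : C * ((g + s * r) * J) = ep * (g + s * r) * (C / ep * J) := by field_simp
      rw [this]
      exact mul_le_mul_of_nonneg_right f2 (by positivity)
    have a3 : (k * J) ^ 2 ≤ Φ * (k ^ 2 / (ep * y) * J) := by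
      have : (k * J) ^ 2 = ep * y * J * (k ^ 2 / (ep * y) * J) := by field_simp
      rw [this]
      exact mul_le_mul_of_nonneg_right f1 (by positivity)
    have a4 : Φ * (C2 * J) = 2 * (Φ * (C / ep * J)) + 2 * (Φ * (k ^ 2 / (ep * y) * J)) := by
      rw [hC2]; ring
    rw [← hJ] at h2
    linarith [sq_nonneg (β + (4 * D1 + 2 * l0) * r ^ 2
      + ((4 * D1 + 2 * l0) * r ^ 2 + 2 * y * γ))]
  have g4 : 2 * (a * (b + y * a) * (β - 2 * y * γ)) ≤ a ^ 2 * Φ + (b + y * a) ^ 2 * (C2 * J) := by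
    refine two_mul_le_add_of_sq_le_mul (by positivity) (by positivity) ?_
    have := mul_le_mul_of_nonneg_left g3 (sq_nonneg (a * (b + y * a)))
    linarith
  have g5 := mul_le_mul_of_nonneg_left (le_of_abs_le g1) (sq_nonneg (b + y * a))
  have g6 := mul_le_mul_of_nonneg_left f1 (sq_nonneg a)
  rw [← hΦ] at h3
  have g7 := mul_le_mul_of_nonneg_left h3 (sq_nonneg a)
  rw [← hJ]
  linarith

theorem zero_sc {ep l0 C : ℝ} (he : 0 < ep) (hC : 0 ≤ C) (hl : l0 < 0) :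
    ∃ c > (0 : ℝ), ∃ κ ≥ (0 : ℝ), ∃ C' ≥ (0 : ℝ), ∀ r s α β γ, Num ep 0 l0 C 0 r s α β γ →
      ∀ a b : ℝ, (c * a ^ 2 - C' * b ^ 2) * (s * r) - κ * (2 * a * b + C' * b ^ 2) * r ^ 2
        ≤ a ^ 2 * α - a * b * β - b ^ 2 * γ := by
  have hk : 0 < -l0 := neg_pos.2 hl
  obtain ⟨C1, hC1⟩ : ∃ C1, C1 = C / ep / 2 / -l0 := ⟨_, rfl⟩
  have c1 : 0 ≤ C1 := by rw [hC1]; positivity
  have c2 : -l0 * C1 = C / ep / 2 := by rw [hC1]; exact mul_div_cancel₀ _ hk.ne'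
  have c3 : 0 ≤ C / ep := by positivity
  refine ⟨ep / 2, by positivity, -l0, hk.le, C / ep / 2 + C + C1, by positivity, ?_⟩
  rintro r s α β γ ⟨hr, hs, g, ρ, hg, hγ, h1, h2, h3⟩ a b
  have hsr : 0 ≤ s * r := mul_nonneg hs hr
  simp only [zero_mul, mul_zero, sub_zero, zero_add, ne_eq, OfNat.ofNat_ne_zero, not_false_eq_true,
    zero_pow] at h1 h2 h3
  have g3 : (β + 2 * l0 * r ^ 2) ^ 2 ≤ ep * (g + s * r) * (C / ep * (r ^ 2 + s * r)) :=
    h2.trans (le_of_eq (by field_simp))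
  have g4 : 2 * (a * b * (β + 2 * l0 * r ^ 2))
      ≤ a ^ 2 * (ep * (g + s * r)) + b ^ 2 * (C / ep * (r ^ 2 + s * r)) := by
    refine two_mul_le_add_of_sq_le_mul (by positivity) (by positivity) ?_
    have := mul_le_mul_of_nonneg_left g3 (sq_nonneg (a * b))
    linarith
  have g5 : b ^ 2 * γ ≤ b ^ 2 * (C * s * r) := by
    rw [hγ]
    exact mul_le_mul_of_nonneg_left (mul_le_mul_of_nonneg_right (le_of_abs_le h1) hr) (sq_nonneg b)
  have g7 := mul_le_mul_of_nonneg_left h3 (sq_nonneg a)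
  have g8 : 0 ≤ a ^ 2 * (ep * g) := by positivity
  have g9 : 0 ≤ C1 * (b ^ 2 * (s * r)) := by positivity
  have g10 : 0 ≤ -l0 * (C / ep / 2 + C) * (b ^ 2 * r ^ 2) := by positivity
  have g11 : -l0 * C1 * (b ^ 2 * r ^ 2) = C / ep / 2 * (b ^ 2 * r ^ 2) := by rw [c2]
  linarith

variable {M : Type} [MetricSpace M] [MeasurableSpace M] {G : Geo 6 M} {U : Set M} {τ : M → ℝ}

theorem mult_of (hD : DIV) (hB : BD) (hE : ERR) (hG : Calc G) (hU : IsOpen U)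
    (hτ : ∀ q ∈ U, G.Sm τ q) (hL : ∀ q ∈ U, G.Lap τ q = 4 * G.Gam τ τ q) {P : Par} {ta tb t : ℝ}
    (hP : P.OK ta tb) (h1 : ta ≤ t) (h2 : t ≤ tb) : ∃ C, 0 ≤ C ∧ ∃ ρ X,
      ∀ gain : M → ℝ → ℝ → ℝ, (∀ q α β γ, Num P.ep P.D1 P.l0 C t (G.Gam τ τ q) (G.A2 q) α β γ →
        ∀ a b, gain q a b ≤ Real.exp (-2 * τ q) * (a ^ 2 * α - a * b * β - b ^ 2 * γ)) →
      Mult G U τ ρ X gain := by
  obtain ⟨ρ, F, Λ, hΛ, hρ⟩ := hD M G U τ P hG.toCore hG.toRule hU hτ hL hP.hc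
  obtain ⟨CB, cb, hCB⟩ := hB P hP.hc
  obtain ⟨CE, ce, hCE⟩ := hE P hP.hc
  set w : M → ℝ := fun q => Real.exp (-2 * τ q) with hw
  have w0 : ∀ q, 0 < w q := fun q => Real.exp_pos _
  have ws : ∀ q ∈ U, G.Sm w q := fun q hq =>
    hG.comp (F := fun t => Real.exp (-2 * t)) (Eventually.of_forall fun t => by fun_prop) (hτ q hq)
  have wd : ∀ q ∈ U, ∀ i, G.δ i w q = w q * -2 * G.δ i τ q := fun q hq i =>
    hG.δcomp (F := fun t => Real.exp (-2 * t))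
      (by simpa [hw] using ((hasDerivAt_id (τ q)).const_mul (-2)).exp) (hτ q hq) i
  have key : ∀ q ∈ U, 0 < G.sg τ q → ∃ X : Ten (Fin 7), X.s = G.A2 q ∧ X.r = G.Gam τ τ q ∧
      (∀ i, G.δ i τ q = X.z i) ∧ ρ q = X.rho P ∧ (∀ i, F i q = X.fld P i) ∧ X.TT + X.EE ≤ Λ q ∧
      (∀ i, G.δ i (fun q => w q * ρ q) q = w q * (X.drho P i - 2 * X.rho P * X.z i)) ∧
      G.Div (fun i q => w q * F i q) q = w q * (X.dv P - 2 * ∑ i, X.z i * X.fld P i) ∧
      0 < X.r + X.s ∧ 0 < X.sg P := by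
    intro q hq hs
    obtain ⟨s1, s2, X, e1, e2, e3, e4, e5, e6, e7, e8⟩ := hρ q hq hs
    have hs' : 0 < X.r + X.s := by rw [e1, e2]; exact hs
    refine ⟨X, e1, e2, fun i => (e3 i).symm, e4, e6, e8, fun i => ?_, ?_, hs', ?_⟩
    · rw [hG.δmul (ws q hq) s1, wd q hq, e5, e4, e3]
      ring
    · rw [hG.dmul (ws q hq) s2, e7]
      simp only [wd q hq, e6, ← e3, mul_assoc, ← mul_sum]
      ring
    · unfold Ten.sg
      rcases X.s_nonneg.eq_or_lt with h | h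
      · rw [← h] at hs' ⊢
        have := hP.hc
        nlinarith
      · have := mul_nonneg hP.hc.le X.r_nonneg
        linarith
  have key2 : ∀ X : Ten (Fin 7), 0 < X.r + X.s → 0 < X.sg P → 0 ≤ X.rho P ∧ ∃ θ, 0 ≤ θ ∧
      ∑ i, (X.drho P i - 2 * X.rho P * X.z i) * (X.drho P i - 2 * X.rho P * X.z i)
        ≤ 4 * X.rho P * θ ∧
      Num P.ep P.D1 P.l0 CE t X.r X.s
        (X.dv P - 2 * ∑ i, X.z i * X.fld P i + X.s * X.rho P - θ)
        (∑ i, X.z i * (X.drho P i - 2 * X.rho P * X.z i) - 2 * ∑ i, X.z i * X.fld P i)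
        (X.rho P * X.r) := by
    intro X hs hσ
    obtain ⟨gx, gk, g1, g2, g3, g4, g5⟩ := ptw (Fintype.card_fin 7) X hP hσ
    obtain ⟨r0, θ, t0, t1, t2⟩ := quad (fun i => X.drho P i - 2 * X.rho P * X.z i) X.z (X.rho P) t
      (X.dv P + 2 * (t - 1) * ∑ i, X.z i * X.fld P i + X.s * X.rho P) _ fun v => by
        refine (g5 t h1 h2 v).trans (le_of_eq ?_)
        congr 2
        exact sum_congr rfl fun i _ => by ring
    obtain ⟨b1, b2⟩ := hCE X hs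
    refine ⟨r0, θ, t0, t1, X.r_nonneg, X.s_nonneg, gx + gk, X.rho P, add_nonneg g1 g2, rfl, b1,
      ?_, ?_⟩
    · refine le_trans (le_of_eq ?_) (b2 gx gk g1 g2 g3 g4)
      have e : ∑ i, X.z i * (X.drho P i - 2 * X.rho P * X.z i)
          = ∑ i, X.z i * X.drho P i - 2 * X.rho P * X.r := by
        rw [Ten.r, mul_sum, ← sum_sub_distrib]
        exact sum_congr rfl fun i _ => by ring
      rw [e]
    · rw [show ∑ i, X.z i * X.z i = X.r from rfl] at t2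
      nlinarith [mul_nonneg hP.he.le (sq_nonneg X.s)]
  refine ⟨CE, ce, fun q => w q * ρ q, fun i q => w q * F i q, fun gain hg => ⟨fun q hq hs => ?_,
    fun q hq hs => ?_, fun K hK hc => ?_, fun q hq hs => ?_⟩⟩
  · obtain ⟨s1, s2, -⟩ := hρ q hq hs
    exact ⟨hG.mul (ws q hq) s1, fun i => hG.mul (ws q hq) (s2 i)⟩
  · obtain ⟨X, -, -, -, e4, -, -, -, -, p1, p2⟩ := key q hq hs
    exact mul_nonneg (w0 q).le (e4 ▸ (key2 X p1 p2).1)
  · have cw : ContinuousOn w U := fun q hq => (hG.cont (ws q hq)).continuousWithinAt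
    have cs : ContinuousOn (G.sg τ) U := fun q hq =>
      (hG.cont (hG.add (hG.smG (hτ q hq) (hτ q hq)) (hG.smA q))).continuousWithinAt
    obtain ⟨C, hC⟩ := hc.exists_bound_of_continuousOn
      (f := fun q => w q * CB + w q ^ 2 * (2 * CB * (Λ q + G.sg τ q ^ 2)
        + 8 * CB ^ 2 * G.sg τ q ^ 2)) (ContinuousOn.mono (by fun_prop) hK)
    refine ⟨C, fun q hq hs => ?_⟩
    obtain ⟨X, e1, e2, -, e4, e5, e6, e7, -, p1, -⟩ := key q (hK hq) hs
    obtain ⟨b1, b2, b3⟩ := hCB X p1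
    have hC' := mul_le_mul_of_nonneg_right (le_of_abs_le (hC q hq)) hs.le
    have es : X.r + X.s = G.sg τ q := by rw [e1, e2]; rfl
    have hr : X.r ≤ G.sg τ q := by rw [← es]; linarith [X.s_nonneg]
    rw [es] at b1 b2 b3
    have l0 : 0 ≤ Λ q := le_trans (add_nonneg X.TT_nonneg X.EE_nonneg) e6
    have m1 : CB * G.sg τ q * (X.TT + X.EE + G.sg τ q ^ 2)
        ≤ CB * G.sg τ q * (Λ q + G.sg τ q ^ 2) :=
      mul_le_mul_of_nonneg_left (by linarith) (by positivity)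
    have w1 := w0 q
    have n1 : 0 ≤ w q * CB * G.sg τ q := by positivity
    have n2 : 0 ≤ w q ^ 2 * (CB * G.sg τ q * (Λ q + G.sg τ q ^ 2)) := by positivity
    have n3 : 0 ≤ w q ^ 2 * (CB ^ 2 * G.sg τ q ^ 3) := by positivity
    refine ⟨?_, ?_, ?_⟩
    · have := mul_le_mul_of_nonneg_left (le_of_abs_le b1) w1.le
      rw [e4]
      nlinarith
    · have a1 : G.Gam (fun q => w q * ρ q) (fun q => w q * ρ q) q
          ≤ w q ^ 2 * (2 * ∑ i, X.drho P i ^ 2 + 8 * (X.rho P ^ 2 * X.r)) := by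
        unfold Geo.Gam
        simp only [e7, Ten.r, mul_sum, ← sum_add_distrib]
        refine sum_le_sum fun i _ => ?_
        nlinarith [mul_nonneg (sq_nonneg (w q)) (sq_nonneg (X.drho P i + 2 * X.rho P * X.z i))]
      have a2 : X.rho P ^ 2 * X.r ≤ CB ^ 2 * G.sg τ q ^ 3 := by
        have := mul_le_mul (sq_le_sq' (abs_le.1 b1).1 (abs_le.1 b1).2) hr X.r_nonneg (sq_nonneg _)
        nlinarith
      have a3 := mul_le_mul_of_nonneg_left (b2.trans m1) (sq_nonneg (w q))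
      have a4 := mul_le_mul_of_nonneg_left a2 (sq_nonneg (w q))
      nlinarith
    · have a3 := mul_le_mul_of_nonneg_left (b3.trans m1) (sq_nonneg (w q))
      simp only [e5, mul_pow, ← mul_sum]
      nlinarith
  · obtain ⟨X, e1, e2, e3, e4, e5, -, e7, e8, p1, p2⟩ := key q hq hs
    obtain ⟨-, θ, t0, t1, t2⟩ := key2 X p1 p2
    refine ⟨w q * θ, mul_nonneg (w0 q).le t0, ?_, fun a b => ?_⟩
    · have := mul_le_mul_of_nonneg_left t1 (sq_nonneg (w q))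
      unfold Geo.Gam
      simp only [e7, e4]
      refine le_trans (le_of_eq ?_) (this.trans (le_of_eq (by ring)))
      rw [mul_sum]
      exact sum_congr rfl fun i _ => by ring
    · rw [e1, e2] at t2
      refine (hg q _ _ _ t2 a b).trans (le_of_eq ?_)
      have a1 : G.Gam τ (fun q => w q * ρ q) q
          = w q * ∑ i, X.z i * (X.drho P i - 2 * X.rho P * X.z i) := by
        unfold Geo.Gam
        simp only [e7, e3, mul_sum]
        exact sum_congr rfl fun i _ => by ring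
      have a2 : ∑ i, w q * F i q * G.δ i τ q = w q * ∑ i, X.z i * X.fld P i := by
        simp only [e5, e3, mul_sum]
        exact sum_congr rfl fun i _ => by ring
      rw [e8, a1, a2, e4]
      simp only [hw]
      ring

/-- **the link** -/
theorem link (hD : DIV) (hB : BD) (hE : ERR) (hC : Vale.Agent.P134Q.CERT) :
    Vale.Agent.P134L.CERT 6 := by
  obtain ⟨P1, P2, P3, P4, t0, t1, t2, t3, a0, -, -, -, a4, o1, o2, o3, o4, d4, l4⟩ := hC
  intro M _ _ _ _ G U τ hG hU hτ hL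
  have hL' : ∀ q ∈ U, G.Lap τ q = 4 * G.Gam τ τ q := fun q hq => by
    rw [hL q hq]; norm_num
  have e6 : ∀ q, -(((6 : ℕ) : ℝ) - 4) * τ q = -2 * τ q := fun q => by norm_num
  constructor
  · intro y hy
    obtain ⟨P, ta, tb, hP, h1, h2⟩ : ∃ (P : Par) (ta tb : ℝ), P.OK ta tb ∧ ta ≤ -y ∧ -y ≤ tb := by
      rcases le_total (-y) t1 with c1 | c1
      · exact ⟨P1, _, _, o1, by linarith [hy.2], c1⟩
      rcases le_total (-y) t2 with c2 | c2
      · exact ⟨P2, _, _, o2, c1, c2⟩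
      rcases le_total (-y) t3 with c3 | c3
      · exact ⟨P3, _, _, o3, c2, c3⟩
      · exact ⟨P4, _, _, o4, c3, by linarith [hy.1]⟩
    obtain ⟨C, c0, ρ, X, h⟩ := mult_of hD hB hE hG hU hτ hL' hP h1 h2
    obtain ⟨c, c1, C', c2, hs⟩ := pos_sc (D1 := P.D1) (l0 := P.l0) hP.he c0 hy.1 hy.2
    refine ⟨ρ, X, c, c1, C', c2, h _ fun q α β γ hn a b => ?_⟩
    refine le_trans (le_of_eq ?_)
      (mul_le_mul_of_nonneg_left (hs _ _ _ _ _ hn a b) (Real.exp_pos _).le)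
    simp only [Geo.II, Geo.EE, e6]
    ring
  · have h3 : t3 ≤ 0 := a4.le
    obtain ⟨C, c0, ρ, X, h⟩ := mult_of hD hB hE hG hU hτ hL' o4 h3 le_rfl
    obtain ⟨c, c1, κ, k1, C', c2, hs⟩ := zero_sc o4.he c0 l4
    refine ⟨ρ, X, c, c1, κ, k1, C', c2, h _ fun q α β γ hn a b => ?_⟩
    rw [d4] at hn
    refine le_trans (le_of_eq ?_)
      (mul_le_mul_of_nonneg_left (hs _ _ _ _ _ hn a b) (Real.exp_pos _).le)
    simp only [Geo.II, Geo.EE, e6]
    ring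

end P134I
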