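import Vale.Agent.P134I.Pt
import Vale.Agent.P134I.Kato
import Vale.Agent.P134Q.Alg

/-!
The ring of functions smooth on an open set `U` as a `P134Q.TC`; Kato and the eigenvalue bound in
dimension six.
-/

noncomputable section

namespace P134I

open Finset Filter Topology Set

section lin
variable {ι : Type*} [Fintype ι] [DecidableEq ι]

theorem kato6 (hm : Fintype.card ι = 7) {N : ι → ℝ} (hN : ∑ i, N i * N i = 1)
    {A : ι → ι → ℝ} (hA : ∀ i j, A i j = A j i) (hAN : ∀ i, ∑ j, A i j * N j = 0)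
    (htr : ∑ i, A i i = 0) {T : ι → ι → ι → ℝ} (h1 : ∀ k i j, T k i j = T k j i)
    (h2 : ∀ k i j, T k i j = T i k j) (hTN : ∀ k i, ∑ j, T k i j * N j = 0)
    (htT : ∀ k, ∑ i, T k i i = 0) (v : ι → ℝ) :
    2 * ∑ k, v k * ∑ i, ∑ j, A i j * T k i j
      - ((∑ i, ∑ j, A i j * A i j) * (∑ i, v i * v i) / 3
        + (∑ i, (∑ j, A i j * v j) * ∑ j, A i j * v j) / 2)
      ≤ ∑ k, ∑ i, ∑ j, T k i j * T k i j := by
  have h := kato (m := 6) hm hN hA (fun k => by
    rw [← hAN k]; exact Finset.sum_congr rfl fun j _ => by rw [hA j k, mul_comm]) htr h2 h1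
    (fun j k => by
      rw [← hTN j k]
      exact Finset.sum_congr rfl fun i _ => by rw [h2 i j k, h1 j i k, mul_comm]) htT v
  push_cast at h
  linarith

theorem eig6 (hm : Fintype.card ι = 7) {N : ι → ℝ} (hN : ∑ i, N i * N i = 1)
    {S : ι → ι → ℝ} (hS : ∀ i j, S i j = S j i) (hSN : ∀ i, ∑ j, S i j * N j = 0)
    (htr : ∑ i, S i i = 0) (v : ι → ℝ) :
    6 * ∑ i, (∑ j, S i j * v j) * ∑ j, S i j * v j
      ≤ 5 * ((∑ i, ∑ j, S i j * S i j) * ∑ i, v i * v i) := by
  have h := eig_le (m := 6) hm (by norm_num) hN hS (fun k => by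
    rw [← hSN k]; exact Finset.sum_congr rfl fun j _ => by rw [hS j k, mul_comm]) htr v
  push_cast at h
  linarith

end lin

namespace PC

variable {M ι : Type} [TopologicalSpace M] [Fintype ι] (c : PC M ι) (U : Set M)

/-- the functions smooth at every point of `U` -/
def RU : Subring (M → ℝ) where
  carrier := {f | ∀ x ∈ U, c.Sm f x}
  mul_mem' hf hg x hx := c.sm_mul (hf x hx) (hg x hx)
  one_mem' x _ := c.sm_const 1 x
  add_mem' hf hg x hx := c.sm_add (hf x hx) (hg x hx)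
  zero_mem' x _ := c.sm_const 0 x
  neg_mem' hf x hx := c.sm_neg (hf x hx)

theorem mem_RU {f : M → ℝ} : f ∈ c.RU U ↔ ∀ x ∈ U, c.Sm f x := Iff.rfl

/-- evaluation at a point -/
def evU (x : M) : c.RU U →+* ℝ := (Pi.evalRingHom (fun _ => ℝ) x).comp (c.RU U).subtype

theorem evU_apply (x : M) (f : c.RU U) : c.evU U x f = f.1 x := rfl

/-- constants -/
def cstU : ℝ →+* c.RU U :=
  (Pi.constRingHom M ℝ).codRestrict (c.RU U) fun a x _ => c.sm_const a x

theorem cstU_val (a : ℝ) (x : M) : (c.cstU U a).1 x = a := rfl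

theorem evU_cstU (a : ℝ) (x : M) : c.evU U x (c.cstU U a) = a := rfl

variable {U}

theorem ind_ev (hU : IsOpen U) {x : M} (hx : x ∈ U) (f : M → ℝ) : U.indicator f =ᶠ[𝓝 x] f :=
  Filter.mem_of_superset (hU.mem_nhds hx) fun _ hy => indicator_of_mem hy f

/-- a function smooth on `U`, extended by zero -/
def indU (hU : IsOpen U) (f : M → ℝ) (hf : ∀ x ∈ U, c.Sm f x) : c.RU U :=
  ⟨U.indicator f, fun x hx => c.sm_congr (ind_ev hU hx f).symm (hf x hx)⟩

theorem extU {f g : c.RU U} (h1 : ∀ x ∈ U, f.1 x = g.1 x) (h2 : ∀ x ∉ U, f.1 x = g.1 x) : f = g :=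
  Subtype.ext (funext fun x => (em (x ∈ U)).elim (h1 x) (h2 x))

/-- the derivative, extended by zero -/
def dU (hU : IsOpen U) (i : ι) : c.RU U →+ c.RU U :=
  AddMonoidHom.mk' (fun f => c.indU hU (c.δ i f.1) fun x hx => c.sm_δ i (f.2 x hx)) fun f g =>
    c.extU (fun x hx => by
      simp only [indU, Subring.coe_add, Pi.add_apply, indicator_of_mem hx]
      exact c.δ_add i (f.2 x hx) (g.2 x hx))
      fun x hx => by simp only [indU, Subring.coe_add, Pi.add_apply, indicator_of_notMem hx,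
        add_zero]

theorem dU_mem (hU : IsOpen U) (i : ι) (f : c.RU U) {x : M} (hx : x ∈ U) :
    (c.dU hU i f).1 x = c.δ i f.1 x := indicator_of_mem hx _

theorem dU_notMem (hU : IsOpen U) (i : ι) (f : c.RU U) {x : M} (hx : x ∉ U) :
    (c.dU hU i f).1 x = 0 := indicator_of_notMem hx _

theorem dU_ev (hU : IsOpen U) (i : ι) (f : c.RU U) {x : M} (hx : x ∈ U) :
    (c.dU hU i f).1 =ᶠ[𝓝 x] c.δ i f.1 := ind_ev hU hx _

theorem val_sum {κ : Type*} (t : Finset κ) (f : κ → c.RU U) (x : M) :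
    (∑ k ∈ t, f k).1 x = ∑ k ∈ t, (f k).1 x := map_sum (c.evU U x) f t

theorem val_mul (f g : c.RU U) (x : M) : (f * g).1 x = f.1 x * g.1 x := rfl
theorem val_add (f g : c.RU U) (x : M) : (f + g).1 x = f.1 x + g.1 x := rfl
theorem val_sub (f g : c.RU U) (x : M) : (f - g).1 x = f.1 x - g.1 x := rfl
theorem val_neg (f : c.RU U) (x : M) : (-f).1 x = -f.1 x := rfl
theorem val_zero (x : M) : (0 : c.RU U).1 x = 0 := rfl
theorem val_one (x : M) : (1 : c.RU U).1 x = 1 := rfl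

variable (U) in
/-- the normal -/
def nU (i : ι) : c.RU U := ⟨c.N i, fun x _ => c.sm_N i x⟩

/-- the functions smooth on an open set form a tangential calculus -/
def tcU (hU : IsOpen U) : Vale.Agent.P134Q.TC ι (c.RU U) where
  d := c.dU hU
  n := c.nU U
  lb i f g := c.extU (fun x hx => by
      simp only [val_add, val_mul, c.dU_mem hU _ _ hx]
      exact c.δ_mul i (f.2 x hx) (g.2 x hx))
    fun x hx => by simp only [val_add, val_mul, c.dU_notMem hU _ _ hx, zero_mul, mul_zero,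
      add_zero]
  un := Subtype.ext (funext fun x => by rw [val_sum]; exact c.nn x)
  nd f := c.extU (fun x hx => by
      simp only [val_sum, val_mul, c.dU_mem hU _ _ hx]
      exact c.nd (f.2 x hx))
    fun x hx => by simp only [val_sum, val_mul, c.dU_notMem hU _ _ hx, mul_zero, val_zero,
      Finset.sum_const_zero]
  sy i j := c.extU (fun x hx => by
      simp only [c.dU_mem hU _ _ hx]
      exact c.sym i j x)
    fun x hx => by simp only [c.dU_notMem hU _ _ hx]
  cm k i f := c.extU (fun x hx => by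
      simp only [val_add, val_sub, val_sum, val_mul, c.dU_mem hU _ _ hx]
      rw [c.δ_congr k (c.dU_ev hU i f hx), c.δ_congr i (c.dU_ev hU k f hx)]
      have h := c.comm k i (f.2 x hx)
      simp only [sub_mul, Finset.sum_sub_distrib, mul_assoc, ← Finset.mul_sum] at h
      simp only [nU]
      linarith)
    fun x hx => by simp only [val_add, val_sub, val_sum, val_mul, c.dU_notMem hU _ _ hx, mul_zero,
      Finset.sum_const_zero, add_zero, sub_zero]
  mn := c.extU (fun x hx => by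
      simp only [val_sum, c.dU_mem hU _ _ hx]
      exact c.mini x)
    fun x hx => by simp only [val_sum, c.dU_notMem hU _ _ hx, val_zero, Finset.sum_const_zero]

variable (hU : IsOpen U)

theorem tcU_d (i : ι) (f : c.RU U) {x : M} (hx : x ∈ U) :
    ((c.tcU hU).d i f).1 x = c.δ i f.1 x := c.dU_mem hU i f hx

theorem tcU_d_ev (i : ι) (f : c.RU U) {x : M} (hx : x ∈ U) :
    ((c.tcU hU).d i f).1 =ᶠ[𝓝 x] c.δ i f.1 := c.dU_ev hU i f hx

theorem tcU_d_out (i : ι) (f : c.RU U) {x : M} (hx : x ∉ U) : ((c.tcU hU).d i f).1 x = 0 :=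
  c.dU_notMem hU i f hx

theorem tcU_n (i : ι) : ((c.tcU hU).n i).1 = c.N i := rfl

theorem tcU_d_cst (i : ι) (a : ℝ) : (c.tcU hU).d i (c.cstU U a) = 0 :=
  c.extU (fun x hx => (c.tcU_d hU i _ hx).trans (c.δ_const i a x))
    fun _ hx => c.tcU_d_out hU i _ hx

theorem tcU_A (i j : ι) {x : M} (hx : x ∈ U) : ((c.tcU hU).A i j).1 x = c.A i j x :=
  c.tcU_d hU i _ hx

theorem tcU_s {x : M} (hx : x ∈ U) : (c.tcU hU).s.1 x = c.s x := by
  simp only [Vale.Agent.P134Q.TC.s, val_sum, val_mul, c.tcU_A hU _ _ hx, s]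

theorem tcU_B (i j : ι) {x : M} (hx : x ∈ U) : ((c.tcU hU).B i j).1 x = c.B i j x := by
  simp only [Vale.Agent.P134Q.TC.B, val_sum, val_mul, c.tcU_A hU _ _ hx, B]

theorem δ_inv {f : M → ℝ} {x : M} (hf : c.Sm f x) (hi : c.Sm (fun y => (f y)⁻¹) x)
    (h0 : ∀ᶠ y in 𝓝 x, f y ≠ 0) (i : ι) :
    c.δ i (fun y => (f y)⁻¹) x = -((f x)⁻¹ * (f x)⁻¹ * c.δ i f x) := by
  have h1 : c.δ i (fun y => f y * (f y)⁻¹) x = 0 :=
    (c.δ_congr i (h0.mono fun y hy => mul_inv_cancel₀ hy)).trans (c.δ_const i 1 x)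
  rw [c.δ_mul i hf hi] at h1
  have hx := h0.self_of_nhds
  field_simp
  field_simp at h1
  linarith

/-- the inverse of a function without zeros on `U` -/
def invU (hinv : ∀ {f x}, c.Sm f x → f x ≠ 0 → c.Sm (fun y => (f y)⁻¹) x) (f : c.RU U)
    (h0 : ∀ x ∈ U, f.1 x ≠ 0) : c.RU U :=
  c.indU hU (fun y => (f.1 y)⁻¹) fun x hx => hinv (f.2 x hx) (h0 x hx)

variable (hinv : ∀ {f x}, c.Sm f x → f x ≠ 0 → c.Sm (fun y => (f y)⁻¹) x) (f : c.RU U)
    (h0 : ∀ x ∈ U, f.1 x ≠ 0)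

theorem invU_mem {x : M} (hx : x ∈ U) : (c.invU hU hinv f h0).1 x = (f.1 x)⁻¹ :=
  indicator_of_mem hx fun y => (f.1 y)⁻¹

theorem tcU_d_inv (i : ι) : (c.tcU hU).d i (c.invU hU hinv f h0)
    = -(c.invU hU hinv f h0 * c.invU hU hinv f h0 * (c.tcU hU).d i f) :=
  c.extU (fun x hx => by
      simp only [val_neg, val_mul, c.tcU_d hU _ _ hx, c.invU_mem hU hinv f h0 hx]
      rw [← c.δ_inv (f.2 x hx) (hinv (f.2 x hx) (h0 x hx))
        (Filter.mem_of_superset (hU.mem_nhds hx) h0) i]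
      exact c.δ_congr i (ind_ev hU hx _))
    fun x hx => by simp only [val_neg, val_mul, c.tcU_d_out hU _ _ hx, mul_zero, neg_zero]

end PC

end P134I
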