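import Vale.Agent.P134I.Ring

/-!
The identities of `P134I.Ring` at a point of a space with a pointwise tangential calculus, through
the ring of smooth germs.
-/

noncomputable section

namespace P134I

open Finset Filter Topology

/-- Pointwise tangential calculus of a minimal hypersurface. -/
structure PC (M : Type*) (ι : Type*) [TopologicalSpace M] [Fintype ι] where
  Sm : (M → ℝ) → M → Prop
  δ : ι → (M → ℝ) → M → ℝ
  N : ι → M → ℝ
  sm_ev : ∀ {f x}, Sm f x → ∀ᶠ y in 𝓝 x, Sm f y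
  sm_congr : ∀ {f g x}, f =ᶠ[𝓝 x] g → Sm f x → Sm g x
  sm_const : ∀ a x, Sm (fun _ => a) x
  sm_add : ∀ {f g x}, Sm f x → Sm g x → Sm (fun y => f y + g y) x
  sm_mul : ∀ {f g x}, Sm f x → Sm g x → Sm (fun y => f y * g y) x
  sm_δ : ∀ {f x} i, Sm f x → Sm (δ i f) x
  sm_N : ∀ i x, Sm (N i) x
  δ_congr : ∀ {f g x} i, f =ᶠ[𝓝 x] g → δ i f x = δ i g x
  δ_const : ∀ i a x, δ i (fun _ => a) x = 0
  δ_add : ∀ {f g x} i, Sm f x → Sm g x → δ i (fun y => f y + g y) x = δ i f x + δ i g x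
  δ_mul : ∀ {f g x} i, Sm f x → Sm g x →
    δ i (fun y => f y * g y) x = δ i f x * g x + f x * δ i g x
  nn : ∀ x, ∑ i, N i x * N i x = 1
  nd : ∀ {f x}, Sm f x → ∑ i, N i x * δ i f x = 0
  sym : ∀ i j x, δ i (N j) x = δ j (N i) x
  mini : ∀ x, ∑ i, δ i (N i) x = 0
  comm : ∀ {f x} i j, Sm f x → δ i (δ j f) x - δ j (δ i f) x
    = ∑ k, (N i x * δ j (N k) x - N j x * δ i (N k) x) * δ k f x

namespace PC

variable {M ι : Type*} [TopologicalSpace M] [Fintype ι] (c : PC M ι)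

/-- second fundamental form -/
def A (j k : ι) : M → ℝ := c.δ j (c.N k)
/-- its square -/
def B (i j : ι) : M → ℝ := fun y => ∑ k, c.A i k y * c.A k j y
/-- `|A|²` -/
def s : M → ℝ := fun y => ∑ j, ∑ k, c.A j k y * c.A j k y
/-- Laplace–Beltrami operator -/
def lap (f : M → ℝ) : M → ℝ := fun y => ∑ i, c.δ i (c.δ i f) y
/-- `A ∇ f` -/
def Ad (f : M → ℝ) (i : ι) : M → ℝ := fun y => ∑ k, c.A i k y * c.δ k f y
/-- `A² ∇ f` -/
def Bd (f : M → ℝ) (i : ι) : M → ℝ := fun y => ∑ k, c.B i k y * c.δ k f y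
/-- covariant Hessian -/
def H (f : M → ℝ) (i j : ι) : M → ℝ := fun y => c.δ i (c.δ j f) y + c.N j y * c.Ad f i y
/-- covariant derivative of `A` -/
def T (i j k : ι) : M → ℝ :=
  fun y => c.δ i (c.A j k) y + c.N j y * c.B i k y + c.N k y * c.B i j y
/-- `∇ |A|² / 2` -/
def Y (i : ι) : M → ℝ := fun y => ∑ j, ∑ k, c.A j k y * c.T i j k y
/-- `|∇ f|²` -/
def g2 (f : M → ℝ) : M → ℝ := fun y => ∑ i, c.δ i f y * c.δ i f y

theorem sm_neg {f : M → ℝ} {x : M} (h : c.Sm f x) : c.Sm (fun y => -f y) x := by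
  simpa using c.sm_mul (c.sm_const (-1) x) h

/-- the ring of smooth germs at `x` -/
def SG (x : M) : Subring (Germ (𝓝 x) ℝ) where
  carrier := {F | ∃ f : M → ℝ, c.Sm f x ∧ F = (f : Germ (𝓝 x) ℝ)}
  mul_mem' := by
    rintro _ _ ⟨f, hf, rfl⟩ ⟨g, hg, rfl⟩
    exact ⟨_, c.sm_mul hf hg, rfl⟩
  one_mem' := ⟨_, c.sm_const 1 x, rfl⟩
  add_mem' := by
    rintro _ _ ⟨f, hf, rfl⟩ ⟨g, hg, rfl⟩
    exact ⟨_, c.sm_add hf hg, rfl⟩
  zero_mem' := ⟨_, c.sm_const 0 x, rfl⟩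
  neg_mem' := by
    rintro _ ⟨f, hf, rfl⟩
    exact ⟨_, c.sm_neg hf, rfl⟩

theorem δ_congr_ev {f g : M → ℝ} {x : M} (i : ι) (h : f =ᶠ[𝓝 x] g) :
    c.δ i f =ᶠ[𝓝 x] c.δ i g :=
  h.eventuallyEq_nhds.mono fun _ hy => c.δ_congr i hy

/-- the derivative of a germ -/
def dG (x : M) (i : ι) : Germ (𝓝 x) ℝ → Germ (𝓝 x) ℝ :=
  Germ.map' (c.δ i) fun _ _ h => c.δ_congr_ev i h

theorem dG_coe (x : M) (i : ι) (f : M → ℝ) : c.dG x i f = (c.δ i f : Germ (𝓝 x) ℝ) := rfl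

/-- `F` is the germ of `f` -/
def Rep {x : M} (F : c.SG x) (f : M → ℝ) : Prop := (F : Germ (𝓝 x) ℝ) = (f : Germ (𝓝 x) ℝ)

/-- the value of a germ -/
def ev (x : M) : c.SG x →+* ℝ := Germ.valueRingHom.comp (c.SG x).subtype

/-- the derivative on smooth germs -/
def dS (x : M) (i : ι) : c.SG x →+ c.SG x :=
  AddMonoidHom.mk' (fun F => ⟨c.dG x i F, by
    obtain ⟨f, hf, e⟩ := F.2
    exact ⟨_, c.sm_δ i hf, by rw [e, dG_coe]⟩⟩) (by
    rintro ⟨_, f, hf, rfl⟩ ⟨_, g, hg, rfl⟩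
    refine Subtype.ext (Germ.coe_eq.2 ?_)
    filter_upwards [c.sm_ev hf, c.sm_ev hg] with y h1 h2
    exact c.δ_add i h1 h2)

variable {c} {x : M}

theorem exists_rep {f : M → ℝ} (hf : c.Sm f x) : ∃ F : c.SG x, c.Rep F f := ⟨⟨f, f, hf, rfl⟩, rfl⟩

theorem exists_fun (F : c.SG x) : ∃ f, c.Sm f x ∧ c.Rep F f := F.2

section
variable {F G : c.SG x} {f g : M → ℝ}

theorem Rep.sm (h : c.Rep F f) : c.Sm f x := by
  obtain ⟨g, hg, e⟩ := F.2
  exact c.sm_congr (Germ.coe_eq.1 (e.symm.trans h)) hg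

theorem Rep.ev (h : c.Rep F f) : c.ev x F = f x := by
  change Germ.value (F : Germ (𝓝 x) ℝ) = f x
  rw [show (F : Germ (𝓝 x) ℝ) = f from h]
  rfl

theorem Rep.ext (h : c.Rep F f) (h' : c.Rep G g) (e : f =ᶠ[𝓝 x] g) : F = G :=
  Subtype.ext (h.trans ((Germ.coe_eq.2 e).trans h'.symm))

theorem Rep.eq (h : c.Rep F f) (h' : c.Rep F g) : f =ᶠ[𝓝 x] g :=
  Germ.coe_eq.1 (h.symm.trans h')

theorem Rep.congr (h : c.Rep F f) (e : f =ᶠ[𝓝 x] g) : c.Rep F g := h.trans (Germ.coe_eq.2 e)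

theorem Rep.add (h : c.Rep F f) (h' : c.Rep G g) : c.Rep (F + G) fun y => f y + g y := by
  unfold Rep at *
  rw [Subring.coe_add, h, h']
  rfl

theorem Rep.sub (h : c.Rep F f) (h' : c.Rep G g) : c.Rep (F - G) fun y => f y - g y := by
  unfold Rep at *
  rw [AddSubgroupClass.coe_sub, h, h']
  rfl

theorem Rep.mul (h : c.Rep F f) (h' : c.Rep G g) : c.Rep (F * G) fun y => f y * g y := by
  unfold Rep at *
  rw [Subring.coe_mul, h, h']
  rfl

theorem rep_zero : c.Rep (0 : c.SG x) fun _ => 0 := rfl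

theorem rep_one : c.Rep (1 : c.SG x) fun _ => 1 := rfl

theorem rep_sum {κ : Type*} (t : Finset κ) {F : κ → c.SG x} {f : κ → M → ℝ}
    (h : ∀ k, c.Rep (F k) (f k)) : c.Rep (∑ k ∈ t, F k) fun y => ∑ k ∈ t, f k y := by
  classical
  induction t using Finset.induction_on with
  | empty => simpa using rep_zero
  | insert a t ha ih => simpa only [sum_insert ha] using (h a).add ih

theorem Rep.dS (h : c.Rep F f) (i : ι) : c.Rep (c.dS x i F) (c.δ i f) := by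
  change c.dG x i F = _
  rw [show (F : Germ (𝓝 x) ℝ) = f from h]
  rfl

end

variable (c x)

/-- the germ of the normal -/
def NS (i : ι) : c.SG x := ⟨c.N i, _, c.sm_N i x, rfl⟩

theorem rep_NS (i : ι) : c.Rep (c.NS x i) (c.N i) := rfl

/-- the smooth germs at `x` form an algebraic tangential calculus -/
def tc : TC (c.SG x) ι where
  d := c.dS x
  N := c.NS x
  leib i F G := by
    obtain ⟨f, hf, hF⟩ := exists_fun F
    obtain ⟨g, hg, hG⟩ := exists_fun G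
    refine ((hF.mul hG).dS i).ext (((hF.dS i).mul hG).add (hF.mul (hG.dS i))) ?_
    filter_upwards [c.sm_ev hf, c.sm_ev hg] with y h1 h2
    exact c.δ_mul i h1 h2
  nn := (rep_sum _ fun i => (c.rep_NS x i).mul (c.rep_NS x i)).ext rep_one
    (Eventually.of_forall c.nn)
  nd F := by
    obtain ⟨f, hf, hF⟩ := exists_fun F
    exact (rep_sum _ fun i => (c.rep_NS x i).mul (hF.dS i)).ext rep_zero
      ((c.sm_ev hf).mono fun y h => c.nd h)
  sym i j := ((c.rep_NS x j).dS i).ext ((c.rep_NS x i).dS j) (Eventually.of_forall (c.sym i j))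
  mini := (rep_sum _ fun i => (c.rep_NS x i).dS i).ext rep_zero (Eventually.of_forall c.mini)
  comm i j F := by
    obtain ⟨f, hf, hF⟩ := exists_fun F
    exact (((hF.dS j).dS i).sub ((hF.dS i).dS j)).ext
      (rep_sum _ fun k => (((c.rep_NS x i).mul ((c.rep_NS x k).dS j)).sub
        ((c.rep_NS x j).mul ((c.rep_NS x k).dS i))).mul (hF.dS k))
      ((c.sm_ev hf).mono fun y h => c.comm i j h)

theorem rep_N (i : ι) : c.Rep ((c.tc x).N i) (c.N i) := rfl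

theorem rep_A (j k : ι) : c.Rep ((c.tc x).A j k) (c.A j k) := (c.rep_N x k).dS j

theorem rep_B (i j : ι) : c.Rep ((c.tc x).B i j) (c.B i j) :=
  rep_sum _ fun k => (c.rep_A x i k).mul (c.rep_A x k j)

theorem rep_s : c.Rep (c.tc x).s c.s :=
  rep_sum _ fun j => rep_sum _ fun k => (c.rep_A x j k).mul (c.rep_A x j k)

theorem rep_T (i j k : ι) : c.Rep ((c.tc x).T i j k) (c.T i j k) :=
  (((c.rep_A x j k).dS i).add ((c.rep_N x j).mul (c.rep_B x i k))).add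
    ((c.rep_N x k).mul (c.rep_B x i j))

theorem rep_Y (i : ι) : c.Rep ((c.tc x).Y i) (c.Y i) :=
  rep_sum _ fun j => rep_sum _ fun k => (c.rep_A x j k).mul (c.rep_T x i j k)

variable {c x} {F : c.SG x} {f : M → ℝ}

theorem Rep.d (h : c.Rep F f) (i : ι) : c.Rep ((c.tc x).d i F) (c.δ i f) := h.dS i

theorem Rep.lap (h : c.Rep F f) : c.Rep ((c.tc x).lap F) (c.lap f) :=
  rep_sum _ fun i => (h.d i).d i

theorem Rep.Ad (h : c.Rep F f) (i : ι) : c.Rep ((c.tc x).Ad F i) (c.Ad f i) :=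
  rep_sum _ fun k => (c.rep_A x i k).mul (h.d k)

theorem Rep.Bd (h : c.Rep F f) (i : ι) : c.Rep ((c.tc x).Bd F i) (c.Bd f i) :=
  rep_sum _ fun k => (c.rep_B x i k).mul (h.d k)

theorem Rep.H (h : c.Rep F f) (i j : ι) : c.Rep ((c.tc x).H F i j) (c.H f i j) :=
  ((h.d j).d i).add ((c.rep_N x j).mul (h.Ad i))

theorem Rep.g2 (h : c.Rep F f) : c.Rep ((c.tc x).g2 F) (c.g2 f) :=
  rep_sum _ fun i => (h.d i).mul (h.d i)

/-! smoothness -/

variable (c x) in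
theorem sm_A (j k : ι) : c.Sm (c.A j k) x := (c.rep_A x j k).sm
variable (c x) in
theorem sm_B (j k : ι) : c.Sm (c.B j k) x := (c.rep_B x j k).sm
variable (c x) in
theorem sm_s : c.Sm c.s x := (c.rep_s x).sm
variable (c x) in
theorem sm_T (i j k : ι) : c.Sm (c.T i j k) x := (c.rep_T x i j k).sm
variable (c x) in
theorem sm_Y (i : ι) : c.Sm (c.Y i) x := (c.rep_Y x i).sm

theorem sm_lap (hf : c.Sm f x) : c.Sm (c.lap f) x := (exists_rep hf).choose_spec.lap.sm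
theorem sm_Ad (hf : c.Sm f x) (i : ι) : c.Sm (c.Ad f i) x := ((exists_rep hf).choose_spec.Ad i).sm
theorem sm_Bd (hf : c.Sm f x) (i : ι) : c.Sm (c.Bd f i) x := ((exists_rep hf).choose_spec.Bd i).sm
theorem sm_H (hf : c.Sm f x) (i j : ι) : c.Sm (c.H f i j) x :=
  ((exists_rep hf).choose_spec.H i j).sm
theorem sm_g2 (hf : c.Sm f x) : c.Sm (c.g2 f) x := (exists_rep hf).choose_spec.g2.sm

theorem sm_sum {κ : Type*} (t : Finset κ) {f : κ → M → ℝ} (h : ∀ k, c.Sm (f k) x) :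
    c.Sm (fun y => ∑ k ∈ t, f k y) x :=
  (rep_sum t fun k => (exists_rep (h k)).choose_spec).sm

theorem δ_sum {κ : Type*} (t : Finset κ) {f : κ → M → ℝ} (h : ∀ k, c.Sm (f k) x) (i : ι) :
    c.δ i (fun y => ∑ k ∈ t, f k y) x = ∑ k ∈ t, c.δ i (f k) x := by
  choose F hF using fun k => exists_rep (h k)
  rw [← ((rep_sum t hF).d i).ev, map_sum, map_sum]
  exact sum_congr rfl fun k _ => ((hF k).d i).ev

/-! the identities at a point -/

section
variable (c x)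

theorem A_symm (j k : ι) : c.A j k x = c.A k j x := c.sym j k x

theorem NA (k : ι) : ∑ j, c.N j x * c.A j k x = 0 := c.nd (c.sm_N k x)

theorem trA : ∑ i, c.A i i x = 0 := c.mini x

theorem B_symm (i j : ι) : c.B i j x = c.B j i x := by
  rw [← (c.rep_B x i j).ev, (c.tc x).B_symm, (c.rep_B x j i).ev]

theorem NB (k : ι) : ∑ j, c.N j x * c.B j k x = 0 := by
  simpa only [map_sum, map_mul, map_zero, (c.rep_N x _).ev, (c.rep_B x _ _).ev] using
    congrArg (c.ev x) ((c.tc x).NB k)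

theorem trB : ∑ i, c.B i i x = c.s x := by
  simpa only [map_sum, (c.rep_s x).ev, (c.rep_B x _ _).ev] using congrArg (c.ev x) (c.tc x).trB

theorem T_symm₁ (i j k : ι) : c.T i j k x = c.T j i k x := by
  rw [← (c.rep_T x i j k).ev, (c.tc x).T_symm₁, (c.rep_T x j i k).ev]

theorem T_symm₂ (i j k : ι) : c.T i j k x = c.T i k j x := by
  rw [← (c.rep_T x i j k).ev, (c.tc x).T_symm₂, (c.rep_T x i k j).ev]

theorem NT (j k : ι) : ∑ i, c.N i x * c.T i j k x = 0 := by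
  simpa only [map_sum, map_mul, map_zero, (c.rep_N x _).ev, (c.rep_T x _ _ _).ev] using
    congrArg (c.ev x) ((c.tc x).NT j k)

theorem trT (i : ι) : ∑ j, c.T i j j x = 0 := by
  simpa only [map_sum, map_zero, (c.rep_T x _ _ _).ev] using congrArg (c.ev x) ((c.tc x).trT i)

theorem lap_N (k : ι) : c.lap (c.N k) x = -(c.s x * c.N k x) := by
  simpa only [map_neg, map_mul, (c.rep_N x _).ev, (c.rep_N x _).lap.ev, (c.rep_s x).ev] using
    congrArg (c.ev x) ((c.tc x).lap_N k)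

theorem d_s (i : ι) : c.δ i c.s x = 2 * c.Y i x := by
  simpa only [map_mul, map_ofNat, ((c.rep_s x).d _).ev, (c.rep_Y x _).ev] using
    congrArg (c.ev x) ((c.tc x).d_s i)

/-- Simons' identity -/
theorem simons :
    c.lap c.s x = 2 * (∑ i, ∑ j, ∑ k, c.T i j k x * c.T i j k x - c.s x * c.s x) := by
  simpa only [map_mul, map_ofNat, map_sub, map_sum, (c.rep_s x).lap.ev, (c.rep_s x).ev,
    (c.rep_T x _ _ _).ev] using congrArg (c.ev x) (c.tc x).simons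

theorem div_Y :
    ∑ i, c.δ i (c.Y i) x = ∑ i, ∑ j, ∑ k, c.T i j k x * c.T i j k x - c.s x * c.s x := by
  have h := congrArg (c.ev x) (c.tc x).div_Y
  simp only [map_mul, map_ofNat, map_sub, map_sum, ((c.rep_Y x _).d _).ev, (c.rep_s x).ev,
    (c.rep_T x _ _ _).ev] at h
  linarith

end

theorem H_symm (hf : c.Sm f x) (i j : ι) : c.H f i j x = c.H f j i x := by
  obtain ⟨F, h⟩ := exists_rep hf
  rw [← (h.H i j).ev, (c.tc x).H_symm, (h.H j i).ev]

theorem NH (hf : c.Sm f x) (j : ι) : ∑ i, c.N i x * c.H f i j x = 0 := by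
  obtain ⟨F, h⟩ := exists_rep hf
  simpa only [map_sum, map_mul, map_zero, (c.rep_N x _).ev, (h.H _ _).ev] using
    congrArg (c.ev x) ((c.tc x).NH F j)

theorem trH (hf : c.Sm f x) : ∑ i, c.H f i i x = c.lap f x := by
  obtain ⟨F, h⟩ := exists_rep hf
  simpa only [map_sum, h.lap.ev, (h.H _ _).ev] using congrArg (c.ev x) ((c.tc x).trH F)

theorem d_g2 (hf : c.Sm f x) (i : ι) :
    c.δ i (c.g2 f) x = 2 * ∑ j, c.H f i j x * c.δ j f x := by
  obtain ⟨F, h⟩ := exists_rep hf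
  simpa only [map_sum, map_mul, map_ofNat, (h.g2.d _).ev, (h.H _ _).ev, (h.d _).ev] using
    congrArg (c.ev x) ((c.tc x).d_g2 F i)

theorem div_Ad (hf : c.Sm f x) :
    ∑ i, c.δ i (c.Ad f i) x = ∑ i, ∑ j, c.A i j x * c.H f i j x := by
  obtain ⟨F, h⟩ := exists_rep hf
  simpa only [map_sum, map_mul, ((h.Ad _).d _).ev, (h.H _ _).ev, (c.rep_A x _ _).ev] using
    congrArg (c.ev x) ((c.tc x).div_Ad F)

/-- `div (A² ∇ f) = Y · ∇ f + ⟨A², Hess f⟩` -/
theorem div_Bd (hf : c.Sm f x) : ∑ i, c.δ i (c.Bd f i) x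
    = ∑ j, c.Y j x * c.δ j f x + ∑ i, ∑ j, c.B i j x * c.H f i j x := by
  obtain ⟨F, h⟩ := exists_rep hf
  simpa only [map_sum, map_mul, map_add, ((h.Bd _).d _).ev, (h.H _ _).ev, (c.rep_B x _ _).ev,
    (c.rep_Y x _).ev, (h.d _).ev] using congrArg (c.ev x) ((c.tc x).div_Bd F)

theorem lap_d (hf : c.Sm f x) (j : ι) : c.lap (c.δ j f) x = c.δ j (c.lap f) x - 2 * c.Bd f j x
    - 2 * (c.N j x * ∑ i, ∑ k, c.A i k x * c.H f i k x) := by
  obtain ⟨F, h⟩ := exists_rep hf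
  simpa only [map_sum, map_mul, map_sub, map_ofNat, (h.d _).lap.ev, (h.lap.d _).ev, (h.Bd _).ev,
    (h.H _ _).ev, (c.rep_A x _ _).ev, (c.rep_N x _).ev] using
    congrArg (c.ev x) ((c.tc x).lap_d F j)

theorem lap_mul {g : M → ℝ} (hf : c.Sm f x) (hg : c.Sm g x) : c.lap (fun y => f y * g y) x
    = c.lap f x * g x + 2 * ∑ i, c.δ i f x * c.δ i g x + f x * c.lap g x := by
  obtain ⟨F, h⟩ := exists_rep hf
  obtain ⟨G, h'⟩ := exists_rep hg
  have e := congrArg (c.ev x) ((c.tc x).lap_mul F G)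
  rw [(h.mul h').lap.ev] at e
  simpa only [map_sum, map_mul, map_add, map_ofNat, h.lap.ev, h'.lap.ev, h.ev, h'.ev, (h.d _).ev,
    (h'.d _).ev] using e

/-- Bochner's formula -/
theorem bochner (hf : c.Sm f x) : c.lap (c.g2 f) x
    = 2 * (∑ i, ∑ j, c.H f i j x * c.H f i j x + ∑ j, c.δ j f x * c.δ j (c.lap f) x
      - ∑ i, c.Ad f i x * c.Ad f i x) := by
  obtain ⟨F, h⟩ := exists_rep hf
  simpa only [map_sum, map_mul, map_add, map_sub, map_ofNat, h.g2.lap.ev, (h.H _ _).ev,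
    (h.d _).ev, (h.lap.d _).ev, (h.Ad _).ev] using congrArg (c.ev x) ((c.tc x).bochner F)

theorem dd_sq (hf : c.Sm f x) : ∑ j, ∑ i, c.δ i (c.δ j f) x * c.δ i (c.δ j f) x
    = ∑ i, ∑ j, c.H f i j x * c.H f i j x + ∑ i, c.Ad f i x * c.Ad f i x := by
  obtain ⟨F, h⟩ := exists_rep hf
  simpa only [map_sum, map_mul, map_add, ((h.d _).d _).ev, (h.H _ _).ev, (h.Ad _).ev] using
    congrArg (c.ev x) ((c.tc x).dd_sq F)

theorem d_Bd (hf : c.Sm f x) :
    ∑ j, c.δ j f x * c.Bd f j x = ∑ i, c.Ad f i x * c.Ad f i x := by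
  obtain ⟨F, h⟩ := exists_rep hf
  simpa only [map_sum, map_mul, (h.d _).ev, (h.Bd _).ev, (h.Ad _).ev] using
    congrArg (c.ev x) ((c.tc x).d_Bd F)

end PC

end P134I
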