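import Mathlib

/-!
Tangential calculus of a minimal hypersurface as pure algebra: a commutative ring with
derivations `d i` (De Giorgi's `δ_i`) and a unit normal `N`.  Codazzi, Jacobi, Bochner, Simons
and the divergence of `A ^ 2 ∇ f`.
-/

namespace P134I

open Finset

/-- Algebraic tangential calculus of a minimal hypersurface. -/
structure TC (R : Type*) (ι : Type*) [CommRing R] [Fintype ι] where
  d : ι → R →+ R
  N : ι → R
  leib : ∀ i f g, d i (f * g) = d i f * g + f * d i g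
  nn : ∑ i, N i * N i = 1
  nd : ∀ f, ∑ i, N i * d i f = 0
  sym : ∀ i j, d i (N j) = d j (N i)
  mini : ∑ i, d i (N i) = 0
  comm : ∀ i j f, d i (d j f) - d j (d i f) = ∑ k, (N i * d j (N k) - N j * d i (N k)) * d k f

namespace TC

variable {R ι : Type*} [CommRing R] [Fintype ι] (c : TC R ι)

/-- second fundamental form -/
def A (j k : ι) : R := c.d j (c.N k)
/-- its square -/
def B (i j : ι) : R := ∑ k, c.A i k * c.A k j
/-- `|A|²` -/
def s : R := ∑ j, ∑ k, c.A j k * c.A j k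
/-- Laplace–Beltrami operator -/
def lap (f : R) : R := ∑ i, c.d i (c.d i f)
/-- `A ∇ f` -/
def Ad (f : R) (i : ι) : R := ∑ k, c.A i k * c.d k f
/-- `A² ∇ f` -/
def Bd (f : R) (i : ι) : R := ∑ k, c.B i k * c.d k f
/-- covariant Hessian -/
def H (f : R) (i j : ι) : R := c.d i (c.d j f) + c.N j * c.Ad f i
/-- covariant derivative of `A` -/
def T (i j k : ι) : R := c.d i (c.A j k) + c.N j * c.B i k + c.N k * c.B i j
/-- `∇ |A|² / 2` -/
def Y (i : ι) : R := ∑ j, ∑ k, c.A j k * c.T i j k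
/-- `|∇ f|²` -/
def g2 (f : R) : R := ∑ i, c.d i f * c.d i f

theorem d_one (i : ι) : c.d i 1 = 0 := by
  have h := c.leib i 1 1
  simp only [mul_one, one_mul] at h
  exact left_eq_add.mp h

theorem A_symm (j k : ι) : c.A j k = c.A k j := c.sym j k

theorem NA (k : ι) : ∑ j, c.N j * c.A j k = 0 := c.nd _

theorem AN (j : ι) : ∑ k, c.N k * c.A j k = 0 := by
  simp only [c.A_symm j]; exact c.NA j

theorem trA : ∑ i, c.A i i = 0 := c.mini

theorem B_symm (i j : ι) : c.B i j = c.B j i := by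
  unfold B
  exact sum_congr rfl fun k _ => by rw [c.A_symm i k, c.A_symm k j, mul_comm]

theorem NB (k : ι) : ∑ j, c.N j * c.B j k = 0 := by
  unfold B
  simp only [mul_sum]
  rw [sum_comm]
  refine sum_eq_zero fun l _ => ?_
  simp only [← mul_assoc]
  rw [← sum_mul, c.NA, zero_mul]

theorem BN (j : ι) : ∑ k, c.N k * c.B j k = 0 := by
  simp only [c.B_symm j]; exact c.NB j

theorem trB : ∑ i, c.B i i = c.s := by
  unfold B s
  exact sum_congr rfl fun i _ => sum_congr rfl fun k _ => by rw [c.A_symm k i]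

theorem NAd (f : R) : ∑ i, c.N i * c.Ad f i = 0 := by
  unfold Ad
  simp only [mul_sum]
  rw [sum_comm]
  refine sum_eq_zero fun l _ => ?_
  simp only [← mul_assoc]
  rw [← sum_mul, c.NA, zero_mul]

theorem AAd (f : R) (j : ι) : ∑ k, c.A j k * c.Ad f k = c.Bd f j := by
  unfold Ad Bd B
  simp only [mul_sum, sum_mul]
  rw [sum_comm]
  exact sum_congr rfl fun _ _ => sum_congr rfl fun _ _ => by ring

theorem Ad_N (k i : ι) : c.Ad (c.N k) i = c.B i k := rfl

theorem comm' (f : R) (i j : ι) :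
    c.d i (c.d j f) = c.d j (c.d i f) + c.N i * c.Ad f j - c.N j * c.Ad f i := by
  have h := c.comm i j f
  have h2 : ∑ k, (c.N i * c.d j (c.N k) - c.N j * c.d i (c.N k)) * c.d k f
      = c.N i * c.Ad f j - c.N j * c.Ad f i := by
    unfold Ad A
    simp only [mul_sum, ← sum_sub_distrib]
    exact sum_congr rfl fun _ _ => by ring
  rw [h2] at h
  linear_combination h

/-- normal part of the second derivatives -/
theorem N_dd (f : R) (i : ι) : ∑ j, c.N j * c.d i (c.d j f) = -c.Ad f i := by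
  have h := congrArg (c.d i) (c.nd f)
  rw [map_sum, map_zero] at h
  simp only [c.leib, sum_add_distrib] at h
  unfold Ad A
  linear_combination h

theorem H_symm (f : R) (i j : ι) : c.H f i j = c.H f j i := by
  unfold H
  rw [c.comm' f i j]
  ring

theorem HN (f : R) (i : ι) : ∑ j, c.N j * c.H f i j = 0 := by
  unfold H
  simp only [mul_add, sum_add_distrib, ← mul_assoc]
  rw [c.N_dd, ← sum_mul, c.nn]
  ring

theorem NH (f : R) (j : ι) : ∑ i, c.N i * c.H f i j = 0 := by
  simp only [c.H_symm f _ j]; exact c.HN f j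

theorem trH (f : R) : ∑ i, c.H f i i = c.lap f := by
  unfold H lap
  rw [sum_add_distrib, c.NAd, add_zero]

theorem T_eq (i j k : ι) : c.T i j k = c.H (c.N k) i j + c.N k * c.B i j := rfl

theorem T_symm₁ (i j k : ι) : c.T i j k = c.T j i k := by
  rw [T_eq, T_eq, c.H_symm, c.B_symm]

theorem T_symm₂ (i j k : ι) : c.T i j k = c.T i k j := by
  unfold T
  rw [c.A_symm j k]
  ring

theorem NT (j k : ι) : ∑ i, c.N i * c.T i j k = 0 := by
  simp only [T_eq, mul_add, sum_add_distrib]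
  rw [c.NH]
  simp only [mul_left_comm _ (c.N k)]
  rw [← mul_sum, c.NB]
  ring

theorem trT (i : ι) : ∑ j, c.T i j j = 0 := by
  unfold T
  simp only [sum_add_distrib]
  rw [← map_sum, c.trA, map_zero, c.BN]
  ring

/-- Jacobi equation of the normal -/
theorem lap_N (k : ι) : c.lap (c.N k) = -(c.s * c.N k) := by
  have h : ∑ i, c.T i i k = 0 := by
    rw [← c.trT k]
    exact sum_congr rfl fun i _ => by rw [c.T_symm₂, c.T_symm₁]
  simp only [T_eq, sum_add_distrib] at h
  rw [c.trH, ← mul_sum, c.trB] at h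
  linear_combination h

/-- a tangential symmetric tensor sees only the covariant Hessian -/
theorem pair_dd (S : ι → ι → R) (hS : ∀ i, ∑ j, c.N j * S i j = 0) (f : R) :
    ∑ i, ∑ j, S i j * c.d i (c.d j f) = ∑ i, ∑ j, S i j * c.H f i j := by
  refine sum_congr rfl fun i _ => ?_
  unfold H
  simp only [mul_add, sum_add_distrib, ← mul_assoc, mul_comm (S i _) (c.N _)]
  rw [← sum_mul, hS, zero_mul, add_zero]

theorem d_g2 (f : R) (i : ι) : c.d i (c.g2 f) = 2 * ∑ j, c.H f i j * c.d j f := by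
  unfold g2 H
  rw [map_sum]
  simp only [c.leib, add_mul, sum_add_distrib]
  have h : ∑ j, c.N j * c.Ad f i * c.d j f = 0 := by
    simp only [mul_right_comm _ (c.Ad f i)]
    rw [← sum_mul, c.nd, zero_mul]
  rw [h]
  simp only [mul_comm (c.d _ f) (c.d i (c.d _ f))]
  ring

theorem d_s (i : ι) : c.d i c.s = 2 * c.Y i := by
  unfold s Y T
  simp only [map_sum, c.leib, mul_add, sum_add_distrib]
  have h1 : ∑ j, ∑ k, c.A j k * (c.N j * c.B i k) = 0 := by
    rw [sum_comm]
    refine sum_eq_zero fun k _ => ?_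
    simp only [← mul_assoc, mul_comm (c.A _ k) (c.N _)]
    rw [← sum_mul, c.NA, zero_mul]
  have h2 : ∑ j, ∑ k, c.A j k * (c.N k * c.B i j) = 0 := by
    refine sum_eq_zero fun j _ => ?_
    simp only [← mul_assoc, mul_comm (c.A j _) (c.N _)]
    rw [← sum_mul, c.AN, zero_mul]
  rw [h1, h2]
  simp only [mul_comm (c.d i (c.A _ _)) (c.A _ _)]
  ring

theorem div_A (k : ι) : ∑ i, c.d i (c.A i k) = -(c.s * c.N k) := c.lap_N k

/-- `div (A ∇ f) = ⟨A, Hess f⟩` -/
theorem div_Ad (f : R) : ∑ i, c.d i (c.Ad f i) = ∑ i, ∑ j, c.A i j * c.H f i j := by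
  rw [← c.pair_dd c.A c.AN]
  unfold Ad
  simp only [map_sum, c.leib, sum_add_distrib]
  have h : ∑ i, ∑ k, c.d i (c.A i k) * c.d k f = 0 := by
    rw [sum_comm]
    simp only [← sum_mul, c.div_A, neg_mul, mul_assoc, sum_neg_distrib, ← mul_sum, c.nd]
    simp
  rw [h, zero_add]

/-- contracted Codazzi: `div A² = Y` on tangent vectors -/
theorem div_B (j : ι) :
    ∑ i, c.d i (c.B i j) = c.Y j - c.N j * ∑ i, ∑ k, c.A i k * c.B i k := by
  have h1 : ∑ i, ∑ k, c.d i (c.A i k) * c.A k j = 0 := by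
    rw [sum_comm]
    simp only [← sum_mul, c.div_A, neg_mul, mul_assoc, sum_neg_distrib, ← mul_sum, c.NA]
    simp
  have h2 : ∑ i, ∑ k, c.A i k * (c.N k * c.B i j) = 0 := by
    refine sum_eq_zero fun i _ => ?_
    simp only [← mul_assoc, mul_comm (c.A i _) (c.N _)]
    rw [← sum_mul, c.AN, zero_mul]
  have h3 : c.Y j = ∑ i, ∑ k, c.A i k * c.T i k j := by
    unfold Y
    exact sum_congr rfl fun i _ => sum_congr rfl fun k _ => by
      rw [c.T_symm₁ j i k, c.T_symm₂ i j k]
  rw [h3]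
  unfold T
  conv_lhs => unfold B
  simp only [map_sum, c.leib, sum_add_distrib, mul_add, h1, h2, mul_sum]
  simp only [mul_left_comm (c.A _ _) (c.N j)]
  ring

/-- `div (A² ∇ f) = Y · ∇ f + ⟨A², Hess f⟩` -/
theorem div_Bd (f : R) :
    ∑ i, c.d i (c.Bd f i) = ∑ j, c.Y j * c.d j f + ∑ i, ∑ j, c.B i j * c.H f i j := by
  rw [← c.pair_dd c.B c.BN]
  unfold Bd
  simp only [map_sum, c.leib, sum_add_distrib]
  congr 1
  rw [sum_comm]
  simp only [← sum_mul, c.div_B, sub_mul, sum_sub_distrib]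
  simp only [mul_right_comm (c.N _) _ (c.d _ f)]
  rw [← sum_mul, c.nd, zero_mul, sub_zero]

/-- commuting the Laplacian with a derivative -/
theorem lap_d (f : R) (j : ι) :
    c.lap (c.d j f) = c.d j (c.lap f) - 2 * c.Bd f j
      - 2 * (c.N j * ∑ i, ∑ k, c.A i k * c.H f i k) := by
  have h1 : ∑ i, c.d i (c.d j (c.d i f))
      = c.d j (c.lap f) - c.Bd f j - c.N j * ∑ i, ∑ k, c.A i k * c.H f i k := by
    simp only [fun i => c.comm' (c.d i f) i j, sum_sub_distrib, sum_add_distrib]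
    have a1 : ∑ i, c.N i * c.Ad (c.d i f) j = -c.Bd f j := by
      rw [← c.AAd]
      unfold Ad
      simp only [mul_sum]
      rw [sum_comm, ← sum_neg_distrib]
      refine sum_congr rfl fun k _ => ?_
      simp only [mul_left_comm (c.N _) (c.A j k)]
      rw [← mul_sum, c.N_dd, ← mul_sum]
      unfold Ad
      ring
    have a2 : ∑ i, c.N j * c.Ad (c.d i f) i = c.N j * ∑ i, ∑ k, c.A i k * c.H f i k := by
      rw [← mul_sum, ← c.pair_dd c.A c.AN, sum_comm]
      unfold Ad
      simp only [fun i k => c.A_symm k i]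
    rw [a1, a2]
    unfold lap
    rw [map_sum]
    ring
  have h2 : ∑ i, c.d i (c.N i * c.Ad f j) = 0 := by
    simp only [c.leib, sum_add_distrib]
    rw [← sum_mul, c.mini, c.nd]
    ring
  have h3 : ∑ i, c.d i (c.N j * c.Ad f i)
      = c.Bd f j + c.N j * ∑ i, ∑ k, c.A i k * c.H f i k := by
    simp only [c.leib, sum_add_distrib]
    rw [← mul_sum, c.div_Ad, ← c.AAd]
    simp only [fun i => c.sym i j]
    rfl
  have h4 : c.lap (c.d j f) = ∑ i, c.d i (c.d j (c.d i f)) + ∑ i, c.d i (c.N i * c.Ad f j)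
      - ∑ i, c.d i (c.N j * c.Ad f i) := by
    unfold lap
    rw [← sum_add_distrib, ← sum_sub_distrib]
    exact sum_congr rfl fun i _ => by rw [c.comm' f i j, map_sub, map_add]
  rw [h4, h1, h2, h3]
  ring

theorem lap_mul (f g : R) :
    c.lap (f * g) = c.lap f * g + 2 * ∑ i, c.d i f * c.d i g + f * c.lap g := by
  unfold lap
  simp only [c.leib, map_add, sum_add_distrib, sum_mul, mul_sum]
  simp only [two_mul, sum_add_distrib]
  ring

theorem lap_sum {κ : Type*} (t : Finset κ) (f : κ → R) :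
    c.lap (∑ k ∈ t, f k) = ∑ k ∈ t, c.lap (f k) := by
  unfold lap
  simp only [map_sum]
  rw [sum_comm]

theorem dd_sq (f : R) : ∑ j, ∑ i, c.d i (c.d j f) * c.d i (c.d j f)
    = ∑ i, ∑ j, c.H f i j * c.H f i j + ∑ i, c.Ad f i * c.Ad f i := by
  rw [sum_comm, ← sum_add_distrib]
  refine sum_congr rfl fun i _ => ?_
  have e : ∀ j, c.d i (c.d j f) = c.H f i j - c.N j * c.Ad f i := fun j => by
    unfold H; ring
  have e2 : ∀ j, (c.H f i j - c.N j * c.Ad f i) * (c.H f i j - c.N j * c.Ad f i)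
      = c.H f i j * c.H f i j - c.N j * c.H f i j * (2 * c.Ad f i)
        + c.N j * c.N j * (c.Ad f i * c.Ad f i) := fun j => by ring
  simp only [e, e2, sum_add_distrib, sum_sub_distrib, ← sum_mul, c.HN, c.nn]
  ring

theorem d_Bd (f : R) : ∑ j, c.d j f * c.Bd f j = ∑ i, c.Ad f i * c.Ad f i := by
  simp only [← c.AAd, mul_sum]
  rw [sum_comm]
  refine sum_congr rfl fun k _ => ?_
  simp only [← mul_assoc]
  rw [← sum_mul]
  congr 1
  unfold Ad
  exact sum_congr rfl fun j _ => by rw [c.A_symm j k, mul_comm]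

/-- Bochner's formula on a minimal hypersurface -/
theorem bochner (f : R) :
    c.lap (c.g2 f) = 2 * (∑ i, ∑ j, c.H f i j * c.H f i j + ∑ j, c.d j f * c.d j (c.lap f)
      - ∑ i, c.Ad f i * c.Ad f i) := by
  unfold g2
  rw [c.lap_sum]
  simp only [c.lap_mul, sum_add_distrib, mul_comm (c.lap (c.d _ f)) (c.d _ f)]
  rw [← mul_sum, c.dd_sq]
  have h : ∑ j, c.d j f * c.lap (c.d j f)
      = ∑ j, c.d j f * c.d j (c.lap f) - 2 * ∑ i, c.Ad f i * c.Ad f i := by
    rw [← c.d_Bd]
    have e : ∀ j, c.d j f * c.lap (c.d j f) = c.d j f * c.d j (c.lap f)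
        - 2 * (c.d j f * c.Bd f j)
        - c.N j * c.d j f * (2 * ∑ i, ∑ k, c.A i k * c.H f i k) := fun j => by
      rw [c.lap_d]; ring
    simp only [e, sum_sub_distrib]
    rw [← sum_mul, c.nd, ← mul_sum]
    ring
  rw [h]
  ring

/-- Simons' identity -/
theorem simons : c.lap c.s = 2 * (∑ i, ∑ j, ∑ k, c.T i j k * c.T i j k - c.s * c.s) := by
  have hs : c.s = ∑ k, c.g2 (c.N k) := by
    unfold s g2 A
    rw [sum_comm]
  have h1 : ∑ k, ∑ i, ∑ j, c.H (c.N k) i j * c.H (c.N k) i j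
      = ∑ i, ∑ j, ∑ k, c.T i j k * c.T i j k + ∑ i, ∑ j, c.B i j * c.B i j := by
    rw [sum_comm, ← sum_add_distrib]
    refine sum_congr rfl fun i _ => ?_
    rw [sum_comm, ← sum_add_distrib]
    refine sum_congr rfl fun j _ => ?_
    have e : ∀ k, c.H (c.N k) i j = c.T i j k - c.N k * c.B i j := fun k => by
      rw [T_eq]; ring
    have e2 : ∀ k, (c.T i j k - c.N k * c.B i j) * (c.T i j k - c.N k * c.B i j)
        = c.T i j k * c.T i j k - c.N k * c.T k i j * (2 * c.B i j)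
          + c.N k * c.N k * (c.B i j * c.B i j) := fun k => by
      rw [c.T_symm₁ k i j, c.T_symm₂ i k j]; ring
    simp only [e, e2, sum_add_distrib, sum_sub_distrib, ← sum_mul, c.NT, c.nn]
    ring
  have h2 : ∑ k, ∑ j, c.d j (c.N k) * c.d j (c.lap (c.N k)) = -(c.s * c.s) := by
    have e : ∀ k j, c.d j (c.N k) * c.d j (c.lap (c.N k))
        = -(c.N k * c.A j k * c.d j c.s) - c.s * (c.A j k * c.A j k) := fun k j => by
      rw [c.lap_N, map_neg, c.leib]
      unfold A
      ring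
    simp only [e]
    rw [sum_comm]
    simp only [sum_sub_distrib, sum_neg_distrib, ← sum_mul, c.AN, ← mul_sum]
    simp only [zero_mul, neg_zero, zero_sub]
    rfl
  have h3 : ∑ k, ∑ i, c.Ad (c.N k) i * c.Ad (c.N k) i = ∑ i, ∑ j, c.B i j * c.B i j := by
    rw [sum_comm]
    rfl
  conv_lhs => rw [hs, c.lap_sum]
  simp only [c.bochner, ← mul_sum, sum_sub_distrib, sum_add_distrib]
  rw [h1, h2, h3]
  ring

/-- `div Y = |T|² - s²` up to the factor two -/
theorem div_Y : 2 * ∑ i, c.d i (c.Y i)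
    = 2 * (∑ i, ∑ j, ∑ k, c.T i j k * c.T i j k - c.s * c.s) := by
  rw [← c.simons]
  unfold lap
  simp only [c.d_s, two_mul, map_add, sum_add_distrib]

end TC

end P134I
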